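import Vale.Agent.P096.AT.Absorb.Config

/-!
# P096: the matrix units of the sites

At every site the left and the right matrix units act on the square of the coordinates; the base
coordinate stands for the vector `∑ a, √(w a) (a, a)`.
-/

noncomputable section

namespace Vale.Agent.P096.AT.ITP

open scoped Kronecker
open Matrix

variable {k : ℕ → ℕ}

/-- The matrices at a site. -/
abbrev SMat (k : ℕ → ℕ) (i : ℕ) : Type := Matrix (Idx k i) (Idx k i) ℂ

/-- A family of units at every site. -/
abbrev UFam (k : ℕ → ℕ) : Type := (i : ℕ) → Fin (k i + 1) → Fin (k i + 1) → SMat k i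

/-- One system of matrix units, which reaches every coordinate from the base one. -/
structure IsUnits (l : UFam k) : Prop where
  mul : ∀ i a b c d, l i a b * l i c d = if b = c then l i a d else 0
  conj : ∀ i a b, (l i a b)ᴴ = l i b a
  one : ∀ i, ∑ a, l i a a = 1
  reach : ∀ i q, ∃ X : Fin (k i + 1) → Fin (k i + 1) → ℂ,
    ∀ p, ∑ a, ∑ b, X a b * l i a b p 0 = if p = q then 1 else 0

/-- Two commuting systems which generate all matrices. -/
structure IsPairing (l r : UFam k) : Prop where
  left : IsUnits l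
  right : IsUnits r
  comm : ∀ i a b c d, l i a b * r i c d = r i c d * l i a b
  span : ∀ i (A : SMat k i), ∃ C : Fin (k i + 1) → Fin (k i + 1) → Fin (k i + 1) → Fin (k i + 1) → ℂ,
    A = ∑ a, ∑ c, ∑ b, ∑ d, C a c b d • (l i a c * r i b d)

lemma IsPairing.symm {l r : UFam k} (h : IsPairing l r) : IsPairing r l where
  left := h.right
  right := h.left
  comm i a b c d := (h.comm i c d a b).symm
  span i A := by
    obtain ⟨C, hC⟩ := h.span i A
    refine ⟨fun b d a c => C a c b d, hC.trans ?_⟩
    calc _ = ∑ a, ∑ b, ∑ c, ∑ d, C a c b d • (l i a c * r i b d) :=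
          Finset.sum_congr rfl fun a _ => Finset.sum_comm
      _ = ∑ b, ∑ a, ∑ c, ∑ d, C a c b d • (l i a c * r i b d) := Finset.sum_comm
      _ = ∑ b, ∑ a, ∑ d, ∑ c, C a c b d • (l i a c * r i b d) :=
          Finset.sum_congr rfl fun b _ => Finset.sum_congr rfl fun a _ => Finset.sum_comm
      _ = ∑ b, ∑ d, ∑ a, ∑ c, C a c b d • (l i a c * r i b d) :=
          Finset.sum_congr rfl fun b _ => Finset.sum_comm
      _ = _ := by simp only [h.comm]

/-- The first column of a unitary matrix can be any unit vector. -/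
lemma exists_unitary_column {n : Type} [Fintype n] [DecidableEq n] (o : n) (b : n → ℂ)
    (hb : ∑ p, ‖b p‖ ^ 2 = 1) :
    ∃ W : Matrix n n ℂ, Wᴴ * W = 1 ∧ W * Wᴴ = 1 ∧ ∀ p, W p o = b p := by
  let v : n → EuclideanSpace ℂ n := fun _ => WithLp.toLp 2 b
  have hv : Orthonormal ℂ (({o} : Set n).domRestrict v) := by
    constructor
    · intro p
      have : ‖WithLp.toLp 2 b‖ ^ 2 = 1 := by rw [EuclideanSpace.norm_sq_eq]; exact hb
      exact (sq_eq_one_iff.1 this).resolve_right fun h => by
        linarith [norm_nonneg (WithLp.toLp 2 b)]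
    · intro p q hpq
      exact absurd (Subtype.ext (p.2.trans q.2.symm)) hpq
  obtain ⟨B, hB⟩ := hv.exists_orthonormalBasis_extension_of_card_eq
    (ι := n) (finrank_euclideanSpace (𝕜 := ℂ) (ι := n))
  have hW : (Matrix.of fun p q => B q p)ᴴ * Matrix.of (fun p q => B q p) = 1 := by
    ext q q'
    have h := orthonormal_iff_ite.1 B.orthonormal q q'
    rw [PiLp.inner_apply] at h
    rw [Matrix.mul_apply, Matrix.one_apply, ← h]
    exact Finset.sum_congr rfl fun p _ => by
      simp [Matrix.conjTranspose_apply, mul_comm]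
  exact ⟨_, hW, mul_eq_one_comm.1 hW, fun p => by rw [Matrix.of_apply, hB o rfl]⟩

/-- The base vector of a site. -/
def baseVec {n : Type} [DecidableEq n] (w : n → ℝ) (p : n × n) : ℂ :=
  if p.1 = p.2 then (Real.sqrt (w p.1) : ℂ) else 0

section BaseVec

variable {n : Type} [Fintype n] [DecidableEq n] (w : n → ℝ) (a b : n) (x : n × n)

lemma left_baseVec :
    ∑ y, (Matrix.single a b (1 : ℂ) ⊗ₖ (1 : Matrix n n ℂ)) x y * baseVec w y =
      if x = (a, b) then (Real.sqrt (w b) : ℂ) else 0 := by
  rw [Finset.sum_eq_single (b, x.2)]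
  · obtain ⟨x1, x2⟩ := x
    rw [kroneckerMap_apply, Matrix.one_apply_eq, mul_one]
    by_cases h1 : a = x1
    · subst h1
      rw [Matrix.single_apply_same, one_mul, baseVec]
      by_cases h2 : b = x2
      · subst h2; simp
      · rw [if_neg h2, if_neg fun h => h2 (congrArg Prod.snd h).symm]
    · rw [show Matrix.single a b (1 : ℂ) x1 b = 0 by simp [h1], zero_mul,
        if_neg fun h => h1 (congrArg Prod.fst h).symm]
  · intro y _ hy
    rw [kroneckerMap_apply]
    by_cases h1 : b = y.1
    · rw [Matrix.one_apply_ne fun h => hy (Prod.ext h1.symm h.symm), mul_zero, zero_mul]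
    · rw [show Matrix.single a b (1 : ℂ) x.1 y.1 = 0 by simp [h1], zero_mul,
        zero_mul]
  · simp

lemma right_baseVec :
    ∑ y, ((1 : Matrix n n ℂ) ⊗ₖ Matrix.single a b (1 : ℂ)) x y * baseVec w y =
      if x = (b, a) then (Real.sqrt (w b) : ℂ) else 0 := by
  rw [Finset.sum_eq_single (x.1, b)]
  · obtain ⟨x1, x2⟩ := x
    rw [kroneckerMap_apply, Matrix.one_apply_eq, one_mul]
    by_cases h1 : a = x2
    · subst h1
      rw [Matrix.single_apply_same, one_mul, baseVec]
      by_cases h2 : x1 = b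
      · subst h2; simp
      · rw [if_neg h2, if_neg fun h => h2 (congrArg Prod.fst h)]
    · rw [show Matrix.single a b (1 : ℂ) x2 b = 0 by simp [h1], zero_mul,
        if_neg fun h => h1 (congrArg Prod.snd h).symm]
  · intro y _ hy
    rw [kroneckerMap_apply]
    by_cases h1 : b = y.2
    · rw [Matrix.one_apply_ne fun h => hy (Prod.ext h.symm h1.symm), zero_mul, zero_mul]
    · rw [show Matrix.single a b (1 : ℂ) x.2 y.2 = 0 by simp [h1], mul_zero,
        zero_mul]
  · simp

lemma sum_left_one : ∑ a : n, Matrix.single a a (1 : ℂ) ⊗ₖ (1 : Matrix n n ℂ) = 1 := by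
  ext x y
  simp [Matrix.sum_apply, Matrix.single_apply, Matrix.one_apply, Prod.ext_iff, ite_and]
  split_ifs <;> rfl

lemma sum_right_one : ∑ a : n, (1 : Matrix n n ℂ) ⊗ₖ Matrix.single a a (1 : ℂ) = 1 := by
  ext x y
  simp [Matrix.sum_apply, Matrix.single_apply, Matrix.one_apply, Prod.ext_iff, ite_and]
  split_ifs <;> rfl


end BaseVec

/-- For positive weights there are two systems with the base vector in product position. -/
theorem exists_pairing (w : (i : ℕ) → Fin (k i + 1) → ℝ) (hw : ∀ i a, 0 < w i a)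
    (hw1 : ∀ i, ∑ a, w i a = 1) :
    ∃ l r : UFam k, IsPairing l r ∧ ∀ i a b, l i a b 0 0 = if a = b then (w i a : ℂ) else 0 := by
  set bv : (i : ℕ) → Idx k i → ℂ := fun i => baseVec (w i) with hbv
  have hs : ∀ i a, (Real.sqrt (w i a) : ℂ) * Real.sqrt (w i a) = w i a := fun i a => by
    rw [← Complex.ofReal_mul, Real.mul_self_sqrt (hw i a).le]
  have hne : ∀ i a, (Real.sqrt (w i a) : ℂ) ≠ 0 := fun i a =>
    Complex.ofReal_ne_zero.2 (Real.sqrt_pos.2 (hw i a)).ne'
  have hb : ∀ i, ∑ p, ‖bv i p‖ ^ 2 = 1 := by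
    intro i
    rw [Fintype.sum_prod_type, ← hw1 i]
    refine Finset.sum_congr rfl fun a _ => ?_
    rw [Finset.sum_eq_single a]
    · simp [hbv, baseVec, Real.sq_sqrt (hw i a).le]
    · intro b _ hb'
      simp [hbv, baseVec, Ne.symm hb']
    · simp
  choose W hW1 hW2 hW0 using fun i => exists_unitary_column (0 : Idx k i) (bv i) (hb i)
  set L : UFam k := fun i a b => (W i)ᴴ * (Matrix.single a b (1 : ℂ) ⊗ₖ (1 : Matrix (Fin (k i + 1)) _ ℂ)) * W i
    with hL
  set R : UFam k := fun i a b => (W i)ᴴ * ((1 : Matrix (Fin (k i + 1)) _ ℂ) ⊗ₖ Matrix.single a b (1 : ℂ)) * W i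
    with hR
  have conjMul : ∀ i (A B : SMat k i),
      (W i)ᴴ * A * W i * ((W i)ᴴ * B * W i) = (W i)ᴴ * (A * B) * W i := fun i A B => by
    simp only [← mul_assoc]
    rw [mul_assoc ((W i)ᴴ * A) (W i), hW2 i, mul_one]
  have col : ∀ i (A : SMat k i) p,
      ((W i)ᴴ * A * W i) p 0 = ∑ x, star (W i x p) * ∑ y, A x y * bv i y := fun i A p => by
    simp only [Matrix.mul_apply, Matrix.conjTranspose_apply, Finset.sum_mul, Finset.mul_sum, hW0]
    rw [Finset.sum_comm]
    simp only [mul_assoc]
  have colL : ∀ i a b (x : Idx k i),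
      ∑ y, (Matrix.single a b (1 : ℂ) ⊗ₖ (1 : Matrix (Fin (k i + 1)) _ ℂ)) x y * bv i y =
        if x = (a, b) then (Real.sqrt (w i b) : ℂ) else 0 := fun i => left_baseVec (w i)
  have colR : ∀ i a b (x : Idx k i),
      ∑ y, ((1 : Matrix (Fin (k i + 1)) _ ℂ) ⊗ₖ Matrix.single a b (1 : ℂ)) x y * bv i y =
        if x = (b, a) then (Real.sqrt (w i b) : ℂ) else 0 := fun i => right_baseVec (w i)
  refine ⟨L, R, ⟨⟨fun i a b c d => ?_, fun i a b => ?_, fun i => ?_, fun i q => ?_⟩,
    ⟨fun i a b c d => ?_, fun i a b => ?_, fun i => ?_, fun i q => ?_⟩, fun i a b c d => ?_,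
    fun i A => ?_⟩, fun i a b => ?_⟩
  · simp only [hL, conjMul, ← mul_kronecker_mul, one_mul]
    split_ifs with h
    · subst h; simp
    · simp [h]
  · simp only [hL, Matrix.conjTranspose_mul, Matrix.conjTranspose_conjTranspose,
      conjTranspose_kronecker, Matrix.conjTranspose_single, star_one, conjTranspose_one, mul_assoc]
  · simp only [hL, ← Finset.mul_sum, ← Finset.sum_mul]
    rw [sum_left_one, mul_one, hW1]
  · refine ⟨fun a b => W i (a, b) q / (Real.sqrt (w i b) : ℂ), fun p => ?_⟩
    have h := congrFun (congrFun (hW1 i) p) q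
    rw [Matrix.mul_apply, Matrix.one_apply, Fintype.sum_prod_type] at h
    rw [← h]
    refine Finset.sum_congr rfl fun a _ => Finset.sum_congr rfl fun b _ => ?_
    simp only [hL, col, colL, mul_ite, mul_zero, Finset.sum_ite_eq', Finset.mem_univ, if_true,
      Matrix.conjTranspose_apply]
    field_simp [hne i b]
  · simp only [hR, conjMul, ← mul_kronecker_mul, one_mul]
    split_ifs with h
    · subst h; simp
    · simp [h]
  · simp only [hR, Matrix.conjTranspose_mul, Matrix.conjTranspose_conjTranspose,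
      conjTranspose_kronecker, Matrix.conjTranspose_single, star_one, conjTranspose_one, mul_assoc]
  · simp only [hR, ← Finset.mul_sum, ← Finset.sum_mul]
    rw [sum_right_one, mul_one, hW1]
  · refine ⟨fun a b => W i (b, a) q / (Real.sqrt (w i b) : ℂ), fun p => ?_⟩
    have h := congrFun (congrFun (hW1 i) p) q
    rw [Matrix.mul_apply, Matrix.one_apply, Fintype.sum_prod_type] at h
    rw [← h, Finset.sum_comm]
    refine Finset.sum_congr rfl fun a _ => Finset.sum_congr rfl fun b _ => ?_
    simp only [hR, col, colR, mul_ite, mul_zero, Finset.sum_ite_eq', Finset.mem_univ, if_true,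
      Matrix.conjTranspose_apply]
    field_simp [hne i a]
  · simp only [hL, hR, conjMul, ← mul_kronecker_mul, one_mul, mul_one]
  · refine ⟨fun a c b d => (W i * A * (W i)ᴴ) (a, b) (c, d), ?_⟩
    have e : ∀ (z : ℂ) (S : SMat k i),
        z • ((W i)ᴴ * S * W i) = (W i)ᴴ * (z • S) * W i := fun z S => by
      rw [mul_smul_comm, smul_mul_assoc]
    simp only [hL, hR, conjMul, ← mul_kronecker_mul, one_mul, mul_one, single_kronecker_single, e,
      ← Finset.mul_sum, ← Finset.sum_mul, Matrix.smul_single, smul_eq_mul]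
    conv_lhs => rw [show A = (W i)ᴴ * (W i * A * (W i)ᴴ) * W i by
      simp only [← mul_assoc]; rw [hW1, one_mul, mul_assoc, hW1, mul_one]]
    congr 2
    conv_lhs => rw [Matrix.matrix_eq_sum_single (W i * A * (W i)ᴴ)]
    simp only [Fintype.sum_prod_type]
    exact Finset.sum_congr rfl fun a _ => Finset.sum_comm
  · simp only [hL, col, colL, mul_ite, mul_zero, Finset.sum_ite_eq', Finset.mem_univ, if_true]
    rw [hW0, hbv]
    simp only [baseVec]
    split_ifs with h
    · subst h; rw [Complex.star_def, Complex.conj_ofReal, hs]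
    · simp

end Vale.Agent.P096.AT.ITP
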