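import Vale.Agent.P096.AT.Absorb.Config

/-!
# P096: operators with finitely many entries and operators at one site
-/

noncomputable section

namespace Vale.Agent.P096.AT.ITP

open scoped InnerProductSpace

universe u

variable {k : ℕ → ℕ} {H : Type u} [NormedAddCommGroup H] [InnerProductSpace ℂ H]

variable {n : ℕ}

/-- The operator with the entries `f` on the first `n` sites at the base tail. -/
def mat (n : ℕ) (f : Hd k n → Hd k n → (H →L[ℂ] H)) : (Sp k H →L[ℂ] Sp k H) :=
  ∑ h, ∑ h', (ins (up h)).comp ((f h h').comp (ev (up h')))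

lemma mat_apply (f : Hd k n → Hd k n → (H →L[ℂ] H)) (v : (Sp k H)) (c : Cf k) :
    mat n f v c = if tail n c = 0 then ∑ h', f (head n c) h' (v (up h')) else 0 := by
  simp only [mat, FunLike.coe_sum, Finset.sum_apply, lp.coeFn_sum, ContinuousLinearMap.comp_apply,
    ins_apply, ev_apply]
  by_cases hc : tail n c = 0
  · rw [if_pos hc, Finset.sum_eq_single (head n c)]
    · exact Finset.sum_congr rfl fun h' _ => if_pos (up_head hc).symm
    · intro h _ hh
      exact Finset.sum_eq_zero fun h' _ => if_neg fun he => hh (by rw [he, head_up])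
    · simp
  · rw [if_neg hc]
    exact Finset.sum_eq_zero fun h _ =>
      Finset.sum_eq_zero fun h' _ => if_neg fun he => hc (by rw [he, tail_up])

lemma expand_mat_apply (f : Hd k n → Hd k n → (H →L[ℂ] H)) (v : (Sp k H)) (c : Cf k) :
    expand n (mat n f) v c = ∑ h', f (head n c) h' (v (glue h' (tail n c))) := by
  rw [expand_apply, mat_apply, if_pos (tail_up _), head_up]
  exact Finset.sum_congr rfl fun h' _ => by rw [blk_up]

/-- The entries of an operator at the base tail. -/
def entry (n : ℕ) (x : (Sp k H →L[ℂ] Sp k H)) (h h' : Hd k n) : H →L[ℂ] H :=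
  (ev (up h)).comp (x.comp (ins (up h')))

lemma entry_apply (x : (Sp k H →L[ℂ] Sp k H)) (h h' : Hd k n) (a : H) :
    entry n x h h' a = x (ins (up h') a) (up h) := rfl

lemma expand_entry (x : (Sp k H →L[ℂ] Sp k H)) : expand n (mat n (entry n x)) = expand n x := by
  refine op_ext fun v c => ?_
  rw [expand_mat_apply, expand_apply]
  simp only [blk, FunLike.coe_sum, Finset.sum_apply, map_sum, lp.coeFn_sum,
    ContinuousLinearMap.comp_apply, entry_apply, ev_apply]

lemma mat_star [CompleteSpace H] (f : Hd k n → Hd k n → (H →L[ℂ] H)) :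
    star (mat n f) = mat n fun h h' => star (f h' h) := by
  symm
  rw [ContinuousLinearMap.star_eq_adjoint (mat n f), ContinuousLinearMap.eq_adjoint_iff]
  intro v w
  simp only [mat, FunLike.coe_sum, Finset.sum_apply, sum_inner, inner_sum,
    ContinuousLinearMap.comp_apply, ev_apply]
  rw [Finset.sum_comm]
  refine Finset.sum_congr rfl fun h _ => Finset.sum_congr rfl fun h' _ => ?_
  rw [inner_ins, ContinuousLinearMap.star_eq_adjoint, ContinuousLinearMap.adjoint_inner_left,
    ← inner_conj_symm (v : (Sp k H)), inner_ins, inner_conj_symm]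

variable (H) in
/-- The matrix `A` at site `i`. -/
def site (i : ℕ) (A : Matrix (Idx k i) (Idx k i) ℂ) : (Sp k H →L[ℂ] Sp k H) :=
  expand (i + 1) (mat (i + 1) fun h h' =>
    (if Function.update h' (Fin.last i) (h (Fin.last i)) = h
      then A (h (Fin.last i)) (h' (Fin.last i)) else 0) • 1)

lemma glue_update_last (i : ℕ) (c : Cf k) (q : Idx k i) :
    glue (Function.update (head (i + 1) c) (Fin.last i) q) (tail (i + 1) c) = upd c i q :=
  Cf.ext fun j => by
    by_cases hj : j < i + 1
    · rw [glue_apply, dif_pos hj]
      by_cases hji : j = i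
      · subst hji
        rw [upd_apply_same]
        exact Function.update_self _ _ _
      · rw [upd_apply_ne c q hji, Function.update_of_ne (fun h => hji (congrArg Fin.val h))]
        rfl
    · rw [glue_apply, dif_neg hj, upd_apply_ne c q (by omega), tail_apply, if_neg hj]

lemma site_apply (i : ℕ) (A : Matrix (Idx k i) (Idx k i) ℂ) (v : (Sp k H)) (c : Cf k) :
    site H i A v c = ∑ q, A (c.1 i) q • v (upd c i q) := by
  rw [site, expand_mat_apply]
  set h := head (i + 1) c with hh
  rw [← Finset.sum_subset
    (Finset.subset_univ (Finset.univ.image fun q : Idx k i => Function.update h (Fin.last i) q))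
    fun h' _ hn => ?_, Finset.sum_image fun p _ q _ hpq => ?_]
  · refine Finset.sum_congr rfl fun q _ => ?_
    rw [if_pos (by rw [Function.update_idem, Function.update_eq_self]), Function.update_self,
      smul_apply, one_apply_eq_self, hh, glue_update_last]
    rfl
  · simpa using congrFun hpq (Fin.last i)
  · rw [if_neg, zero_smul]
    · rfl
    intro he
    refine hn (Finset.mem_image.2 ⟨h' (Fin.last i), Finset.mem_univ _, ?_⟩)
    rw [← he, Function.update_idem, Function.update_eq_self]

variable {i : ℕ}

lemma site_mul (A B : Matrix (Idx k i) (Idx k i) ℂ) :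
    site H i A * site H i B = site H i (A * B) := op_ext fun v c => by
  simp only [mul_apply_eq_comp, site_apply, upd_apply_same, upd_upd, Matrix.mul_apply,
    Finset.smul_sum, smul_smul, Finset.sum_smul]
  exact Finset.sum_comm

lemma site_one : site H i (1 : Matrix (Idx k i) (Idx k i) ℂ) = 1 := op_ext fun v c => by
  rw [site_apply, Finset.sum_eq_single (c.1 i)]
  · rw [Matrix.one_apply_eq, one_smul, upd_self]; rfl
  · intro q _ hq
    rw [Matrix.one_apply_ne (Ne.symm hq), zero_smul]
  · simp

variable (H) in
/-- `site` as a linear map. -/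
def siteLin (i : ℕ) : Matrix (Idx k i) (Idx k i) ℂ →ₗ[ℂ] (Sp k H →L[ℂ] Sp k H) where
  toFun := site H i
  map_add' A B := op_ext fun v c => by
    simp [site_apply, add_smul, Finset.sum_add_distrib]
  map_smul' a A := op_ext fun v c => by
    simp [site_apply, Finset.smul_sum, smul_smul]

lemma siteLin_apply (A : Matrix (Idx k i) (Idx k i) ℂ) : siteLin H i A = site H i A := rfl

lemma site_zero : site H i (0 : Matrix (Idx k i) (Idx k i) ℂ) = 0 := (siteLin H i).map_zero

lemma site_smul (a : ℂ) (A : Matrix (Idx k i) (Idx k i) ℂ) :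
    site H i (a • A) = a • site H i A := (siteLin H i).map_smul a A

lemma site_sum {ι : Type*} (s : Finset ι) (A : ι → Matrix (Idx k i) (Idx k i) ℂ) :
    site H i (∑ a ∈ s, A a) = ∑ a ∈ s, site H i (A a) := map_sum (siteLin H i) A s

lemma site_star [CompleteSpace H] (A : Matrix (Idx k i) (Idx k i) ℂ) :
    star (site H i A) = site H i A.conjTranspose := by
  rw [site, ← expand_star, mat_star, site]
  congr 2
  funext h h'
  rw [star_smul, star_one]
  congr 1
  have key : Function.update h (Fin.last i) (h' (Fin.last i)) = h' ↔
      Function.update h' (Fin.last i) (h (Fin.last i)) = h := by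
    constructor <;>
      · intro he
        rw [← he]
        simp
  simp only [key]
  split_ifs <;> simp [Matrix.conjTranspose_apply]

lemma site_comm {j : ℕ} (hij : i ≠ j) (A : Matrix (Idx k i) (Idx k i) ℂ)
    (B : Matrix (Idx k j) (Idx k j) ℂ) : site H i A * site H j B = site H j B * site H i A :=
  op_ext fun v c => by
    simp only [mul_apply_eq_comp, site_apply, Finset.smul_sum, smul_smul,
      upd_apply_ne _ _ hij.symm, upd_apply_ne _ _ hij]
    rw [Finset.sum_comm]
    exact Finset.sum_congr rfl fun q _ => Finset.sum_congr rfl fun p _ => by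
      rw [upd_comm c hij, mul_comm]

lemma site_comm_diag (A : Matrix (Idx k i) (Idx k i) ℂ) (y : H →L[ℂ] H) :
    site H i A * diag k y = diag k y * site H i A :=
  op_ext fun v c => by simp [site_apply, diag_apply, map_sum]

lemma blk_site_lt (hi : i < n) (A : Matrix (Idx k i) (Idx k i) ℂ) (t : Cf k) (v : (Sp k H)) :
    blk n t (site H i A v) = site H i A (blk n t v) :=
  lp.ext (funext fun c => by
    rw [blk_apply, site_apply, site_apply]
    simp only [blk_apply, tail_upd_lt c _ hi, glue_head_upd c t _ hi]
    split_ifs with hc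
    · refine Finset.sum_congr rfl fun q _ => ?_
      rw [glue_apply, dif_pos hi]
      rfl
    · simp)

lemma expand_site_mul (hi : i < n) (A : Matrix (Idx k i) (Idx k i) ℂ) (x : (Sp k H →L[ℂ] Sp k H)) :
    expand n (site H i A * x) = site H i A * expand n x :=
  op_ext fun v c => by
    simp only [mul_apply_eq_comp, expand_apply, site_apply, tail_upd_lt c _ hi]
    refine Finset.sum_congr rfl fun q _ => ?_
    rw [up, up, glue_head_upd c 0 q hi, glue_apply, dif_pos hi]
    rfl

lemma expand_mul_site (hi : i < n) (A : Matrix (Idx k i) (Idx k i) ℂ) (x : (Sp k H →L[ℂ] Sp k H)) :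
    expand n (x * site H i A) = expand n x * site H i A :=
  op_ext fun v c => by simp only [mul_apply_eq_comp, expand_apply, blk_site_lt hi]

lemma expand_comm_site_ge (hi : n ≤ i) (A : Matrix (Idx k i) (Idx k i) ℂ) (x : (Sp k H →L[ℂ] Sp k H)) :
    site H i A * expand n x = expand n x * site H i A :=
  op_ext fun v c => by
    have e : blk n (tail n c) (site H i A v) =
        ∑ q, A (c.1 i) q • blk n (upd (tail n c) i q) v := lp.ext (funext fun d => by
      simp only [lp.coeFn_sum, Finset.sum_apply, lp.coeFn_smul, Pi.smul_apply, blk_apply,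
        site_apply]
      split_ifs with hd
      · refine Finset.sum_congr rfl fun q _ => ?_
        rw [glue_upd_ge _ _ q hi, glue_apply, dif_neg (by omega), tail_apply, if_neg (by omega)]
      · simp)
    simp only [mul_apply_eq_comp, expand_apply, site_apply, e, map_sum, map_smul, lp.coeFn_sum,
      Finset.sum_apply, lp.coeFn_smul, Pi.smul_apply, tail_upd_ge c _ hi, head_upd_ge c _ hi]

lemma expand_comm_site {x : (Sp k H →L[ℂ] Sp k H)} {A : Matrix (Idx k i) (Idx k i) ℂ}
    (hx : site H i A * x = x * site H i A) :
    site H i A * expand n x = expand n x * site H i A := by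
  rcases lt_or_ge i n with hi | hi
  · rw [← expand_site_mul hi, hx, expand_mul_site hi]
  · exact expand_comm_site_ge hi A x

variable (H) in
/-- The product over the first sites. -/
def word (A : (i : ℕ) → Matrix (Idx k i) (Idx k i) ℂ) : ℕ → (Sp k H →L[ℂ] Sp k H)
  | 0 => 1
  | m + 1 => word A m * site H m (A m)

lemma word_comm_site (A : (i : ℕ) → Matrix (Idx k i) (Idx k i) ℂ) {m : ℕ} (hi : m ≤ i)
    (B : Matrix (Idx k i) (Idx k i) ℂ) : word H A m * site H i B = site H i B * word H A m := by
  induction m with
  | zero => simp [word]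
  | succ m ih =>
    rw [word, mul_assoc, site_comm (show m ≠ i by omega), ← mul_assoc, ih (by omega), mul_assoc]

lemma word_unit_apply (a b : Cf k) (m : ℕ) (v : (Sp k H)) (c : Cf k) :
    word H (fun i => Matrix.single (a.1 i) (b.1 i) (1 : ℂ)) m v c =
      if head m c = head m a then v (glue (head m b) (tail m c)) else 0 := by
  induction m generalizing v with
  | zero =>
    rw [if_pos (Subsingleton.elim _ _)]
    have h : glue (head 0 b) (tail 0 c) = c := Cf.ext fun j => by simp [glue_apply, tail_apply]
    rw [h]; rfl
  | succ m ih =>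
    rw [word, mul_apply_eq_comp, ih, site_apply]
    have hcm : (glue (head m b) (tail m c)).1 m = c.1 m := by
      simp [glue_apply, tail_apply]
    simp only [hcm, Matrix.single_apply]
    by_cases hm : head m c = head m a
    · rw [if_pos hm]
      by_cases ha : a.1 m = c.1 m
      · have hs : head (m + 1) c = head (m + 1) a := funext fun j => by
          rcases lt_or_ge j.val m with hj | hj
          · exact congrFun hm ⟨j.val, hj⟩
          · obtain ⟨j, hj'⟩ := j
            obtain rfl : j = m := le_antisymm (Nat.lt_succ_iff.1 hj') hj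
            exact ha.symm
        rw [if_pos hs, Finset.sum_eq_single (b.1 m)]
        · rw [if_pos ⟨ha, rfl⟩, one_smul]
          refine congrArg (fun d => v d) (Cf.ext fun j => ?_)
          rcases lt_trichotomy j m with hj | rfl | hj
          · simp [upd_apply_ne _ _ hj.ne, glue_apply, head, hj, hj.trans m.lt_succ_self]
          · simp [upd_apply_same, glue_apply, head]
          · simp [upd_apply_ne _ _ hj.ne', glue_apply, tail_apply, not_lt.2 hj.le,
              show ¬ j < m + 1 by omega]
        · intro q _ hq
          rw [if_neg fun h => hq h.2.symm, zero_smul]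
        · simp
      · rw [if_neg fun h => ha (congrFun h (Fin.last m)).symm]
        exact Finset.sum_eq_zero fun q _ => by rw [if_neg fun h => ha h.1, zero_smul]
    · rw [if_neg hm, if_neg fun h => hm (funext fun j => congrFun h j.castSucc)]

lemma expand_eq_sum_word (n : ℕ) (x : (Sp k H →L[ℂ] Sp k H)) :
    expand n x = ∑ h : Hd k n, ∑ h' : Hd k n, diag k (entry n x h h') *
      word H (fun i => Matrix.single ((up h).1 i) ((up h').1 i) (1 : ℂ)) n := by
  refine op_ext fun v c => ?_
  conv_lhs => rw [← expand_entry]
  rw [expand_mat_apply]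
  simp only [FunLike.coe_sum, Finset.sum_apply, lp.coeFn_sum, mul_apply_eq_comp, diag_apply,
    word_unit_apply, head_up]
  rw [Finset.sum_eq_single_of_mem (head n c) (Finset.mem_univ _)
    (fun h _ hh => Finset.sum_eq_zero fun h' _ => by rw [if_neg (Ne.symm hh), map_zero])]
  exact Finset.sum_congr rfl fun h' _ => by rw [if_pos rfl]

end Vale.Agent.P096.AT.ITP
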