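import Vale.Agent.P096.MatClose
import Vale.Agent.P096.KK.WeakLim
import Vale.Agent.P096.AT.Absorb.SiteOps
import Vale.Agent.P096.AT.Absorb.Pairing

/-!
# P096: tensoring an algebra with the sites, and its closeness

`algOf S r` commutes with the diagonal of `S` and with the units `r` at every site.
-/

noncomputable section

namespace Vale.Agent.P096.AT.ITP

set_option linter.unusedSectionVars false

open scoped InnerProductSpace
open Filter Topology
open Vale.Agent.P104.Sim (MatContraction)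
open Vale.Agent.P096.KK (WLim exists_linear_wLim)

universe u

variable {k : ℕ → ℕ} {H : Type u} [NormedAddCommGroup H] [InnerProductSpace ℂ H] [CompleteSpace H]

/-- The operators which commute with the algebra to be amplified. -/
def gens (S : VonNeumannAlgebra H) (r : UFam k) : Set (Sp k H →L[ℂ] Sp k H) :=
  (diag k '' (S : Set (H →L[ℂ] H))) ∪ {g | ∃ i a b, g = site H i (r i a b)}

/-- The operators commuting with the diagonal of `S` and with the units of all sites. -/
def algOf (S : VonNeumannAlgebra H) (r : UFam k) : VonNeumannAlgebra (Sp k H) where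
  toStarSubalgebra := StarSubalgebra.centralizer ℂ (gens S r)
  centralizer_centralizer' := by simp

variable {S : VonNeumannAlgebra H} {l r : UFam k}

lemma mem_algOf (hr : IsUnits r) {x : (Sp k H →L[ℂ] Sp k H)} :
    x ∈ algOf S r ↔ (∀ y ∈ S, diag k y * x = x * diag k y) ∧
      ∀ i a b, site H i (r i a b) * x = x * site H i (r i a b) := by
  change x ∈ StarSubalgebra.centralizer ℂ (gens S r) ↔ _
  rw [StarSubalgebra.mem_centralizer_iff]
  refine ⟨fun h => ⟨fun y hy => (h _ (Or.inl ⟨y, hy, rfl⟩)).1,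
    fun i a b => (h _ (Or.inr ⟨i, a, b, rfl⟩)).1⟩, ?_⟩
  rintro ⟨h1, h2⟩ g (⟨y, hy, rfl⟩ | ⟨i, a, b, rfl⟩)
  · exact ⟨h1 y hy, by rw [← diag_star]; exact h1 _ (star_mem hy)⟩
  · exact ⟨h2 i a b, by rw [site_star, hr.conj]; exact h2 i b a⟩

lemma mem_of_commute {M : VonNeumannAlgebra H} {x : H →L[ℂ] H}
    (hx : ∀ y ∈ M.commutant, y * x = x * y) : x ∈ M := by
  rw [← M.commutant_commutant, VonNeumannAlgebra.mem_commutant_iff]
  exact hx

/-! ### The average over the units of one site -/

/-- The average over the units of the site `i`. -/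
def phi (r : UFam k) (i : ℕ) (x : (Sp k H →L[ℂ] Sp k H)) : (Sp k H →L[ℂ] Sp k H) :=
  ((k i : ℂ) + 1)⁻¹ • ∑ a, ∑ b, site H i (r i a b) * x * site H i (r i b a)

/-- The averages over the units of the first sites. -/
def phiAll (r : UFam k) : ℕ → (Sp k H →L[ℂ] Sp k H) → (Sp k H →L[ℂ] Sp k H)
  | 0, x => x
  | m + 1, x => phi r m (phiAll r m x)

section Phi

variable {i : ℕ}

lemma units_avg_comm {n : Type*} [Fintype n] [DecidableEq n] {A : Type*} [Ring A] (R : n → n → A)
    (hR : ∀ a b c d, R a b * R c d = if b = c then R a d else 0) (x : A) (c d : n) :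
    R c d * (∑ a, ∑ b, R a b * x * R b a) = (∑ a, ∑ b, R a b * x * R b a) * R c d := by
  calc R c d * (∑ a, ∑ b, R a b * x * R b a)
      = ∑ b, R c b * x * R b d := by
        simp only [Finset.mul_sum, ← mul_assoc, hR]
        rw [Finset.sum_eq_single_of_mem d (Finset.mem_univ _) fun a _ ha => ?_]
        · simp
        · exact Finset.sum_eq_zero fun b _ => by rw [if_neg (Ne.symm ha), zero_mul, zero_mul]
    _ = _ := by
        simp only [Finset.sum_mul, mul_assoc, hR]
        refine ((Finset.sum_eq_single_of_mem c (Finset.mem_univ _) fun a _ ha => ?_).trans ?_).symm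
        · exact Finset.sum_eq_zero fun b _ => by rw [if_neg ha, mul_zero, mul_zero]
        · simp

lemma phi_comm (hr : IsUnits r) (x : (Sp k H →L[ℂ] Sp k H)) (c d : Fin (k i + 1)) :
    site H i (r i c d) * phi r i x = phi r i x * site H i (r i c d) := by
  have hR : ∀ a b c d, site H i (r i a b) * site H i (r i c d) =
      if b = c then site H i (r i a d) else 0 := fun a b c d => by
    rw [site_mul, hr.mul, apply_ite (site H i), site_zero]
  rw [phi, mul_smul_comm, smul_mul_assoc, units_avg_comm (fun a b => site H i (r i a b)) hR x c d]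

lemma phi_of_comm (hr : IsUnits r) {x : (Sp k H →L[ℂ] Sp k H)}
    (hx : ∀ a b, site H i (r i a b) * x = x * site H i (r i a b)) : phi r i x = x := by
  have h : ∑ a, ∑ b, site H i (r i a b) * x * site H i (r i b a) =
      ((k i : ℂ) + 1) • x := by
    simp only [hx, mul_assoc, site_mul, hr.mul, if_true]
    rw [Finset.sum_comm]
    simp only [← Finset.mul_sum, ← site_sum, hr.one, site_one, mul_one, Finset.sum_const,
      Finset.card_univ, Fintype.card_fin]
    rw [← Nat.cast_smul_eq_nsmul ℂ, Nat.cast_add, Nat.cast_one]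
  rw [phi, h, inv_smul_smul₀ (Nat.cast_add_one_ne_zero _)]

lemma phi_preserve (x z : (Sp k H →L[ℂ] Sp k H)) (hz : ∀ a b, site H i (r i a b) * z = z * site H i (r i a b))
    (hx : z * x = x * z) : z * phi r i x = phi r i x * z := by
  simp only [phi, mul_smul_comm, smul_mul_assoc, Finset.mul_sum, Finset.sum_mul]
  refine congrArg _ (Finset.sum_congr rfl fun a _ => Finset.sum_congr rfl fun b _ => ?_)
  rw [← mul_assoc, ← mul_assoc, ← hz, mul_assoc (site H i _) z, hx, ← mul_assoc, mul_assoc _ z,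
    ← hz, ← mul_assoc]

lemma phi_mul_right (x z : (Sp k H →L[ℂ] Sp k H)) (hz : ∀ a b, site H i (r i a b) * z = z * site H i (r i a b)) :
    phi r i (x * z) = phi r i x * z := by
  simp only [phi, smul_mul_assoc, Finset.sum_mul]
  refine congrArg _ (Finset.sum_congr rfl fun a _ => Finset.sum_congr rfl fun b _ => ?_)
  rw [← mul_assoc, mul_assoc _ z, ← hz, ← mul_assoc]

lemma phi_mul_left (x z : (Sp k H →L[ℂ] Sp k H)) (hz : ∀ a b, site H i (r i a b) * z = z * site H i (r i a b)) :
    phi r i (z * x) = z * phi r i x := by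
  simp only [phi, mul_smul_comm, Finset.mul_sum]
  refine congrArg _ (Finset.sum_congr rfl fun a _ => Finset.sum_congr rfl fun b _ => ?_)
  rw [← mul_assoc, hz]
  simp only [mul_assoc]

lemma phi_sum {ι : Type*} (s : Finset ι) (f : ι → (Sp k H →L[ℂ] Sp k H)) :
    phi r i (∑ q ∈ s, f q) = ∑ q ∈ s, phi r i (f q) := by
  simp only [phi, Finset.mul_sum, Finset.sum_mul, Finset.smul_sum]
  exact (Finset.sum_congr rfl fun a _ => Finset.sum_comm).trans Finset.sum_comm

lemma phi_smul (c : ℂ) (x : (Sp k H →L[ℂ] Sp k H)) : phi r i (c • x) = c • phi r i x := by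
  simp only [phi, mul_smul_comm, smul_mul_assoc, ← Finset.smul_sum]
  rw [smul_comm]

lemma phi_sub (x y : (Sp k H →L[ℂ] Sp k H)) : phi r i (x - y) = phi r i x - phi r i y := by
  simp only [phi, mul_sub, sub_mul, Finset.sum_sub_distrib, smul_sub]

lemma phi_bound (hr : IsUnits r) {p : ℕ} {e : Fin p → Fin p → (Sp k H →L[ℂ] Sp k H)} {K : ℝ}
    (he : ∀ v : Fin p → (Sp k H), ∑ a, ‖∑ b, e a b (v b)‖ ^ 2 ≤ K ^ 2 * ∑ b, ‖v b‖ ^ 2)
    (v : Fin p → (Sp k H)) :
    ∑ a, ‖∑ b, phi r i (e a b) (v b)‖ ^ 2 ≤ K ^ 2 * ∑ b, ‖v b‖ ^ 2 := by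
  set R : Fin (k i + 1) → Fin (k i + 1) → (Sp k H →L[ℂ] Sp k H) := fun a b => site H i (r i a b)
  set N : ℝ := (k i : ℝ) + 1
  have hN : 0 < N := by positivity
  have hstar : ∀ a b, star (R a b) = R b a := fun a b => by simp only [R]; rw [site_star, hr.conj]
  have hR : ∀ w : (Sp k H), ∑ q : Fin (k i + 1) × Fin (k i + 1), ‖R q.2 q.1 w‖ ^ 2 = N * ‖w‖ ^ 2 := by
    intro w
    have h1 : ∀ a b, ‖R b a w‖ ^ 2 = (⟪w, R a a w⟫_ℂ).re := fun a b => by
      rw [← inner_self_eq_norm_sq (𝕜 := ℂ)]
      rw [← ContinuousLinearMap.adjoint_inner_right (R b a), ← ContinuousLinearMap.star_eq_adjoint,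
        hstar, ← mul_apply_eq_comp]
      simp only [R, site_mul, hr.mul, if_true]
      rfl
    have h2 : ∑ a, (⟪w, R a a w⟫_ℂ).re = ‖w‖ ^ 2 := by
      rw [← Complex.re_sum, ← inner_sum, ← Finset.sum_apply, ← FunLike.coe_sum]
      simp only [R, ← site_sum, hr.one, site_one, one_apply_eq_self]
      exact inner_self_eq_norm_sq (𝕜 := ℂ) w
    rw [Fintype.sum_prod_type, Finset.sum_comm]
    simp only [h1]
    rw [Finset.sum_const, Finset.card_univ, Fintype.card_fin, h2, nsmul_eq_mul]
    push_cast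
    rfl
  have key : ∀ u : Fin (k i + 1) × Fin (k i + 1) → (Sp k H),
      ‖((k i : ℂ) + 1)⁻¹ • ∑ q, R q.1 q.2 (u q)‖ ^ 2 ≤ N⁻¹ * ∑ q, ‖u q‖ ^ 2 := by
    intro u
    set T := ∑ q, R q.1 q.2 (u q) with hT
    have h1 : ‖T‖ ^ 2 ≤ ∑ q, ‖R q.2 q.1 T‖ * ‖u q‖ := by
      rw [← inner_self_eq_norm_sq (𝕜 := ℂ) T]
      conv_lhs => arg 2; arg 3; rw [hT]
      rw [inner_sum, map_sum]
      refine Finset.sum_le_sum fun q _ => (RCLike.re_le_norm _).trans ?_
      rw [← ContinuousLinearMap.adjoint_inner_left, ← ContinuousLinearMap.star_eq_adjoint, hstar]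
      exact norm_inner_le_norm _ _
    have h2 := (Finset.sum_mul_sq_le_sq_mul_sq Finset.univ (fun q => ‖R q.2 q.1 T‖)
      fun q => ‖u q‖)
    rw [hR] at h2
    have h3 : ‖T‖ ^ 2 ≤ N * ∑ q, ‖u q‖ ^ 2 := by
      rcases (norm_nonneg T).eq_or_lt with h0 | h0
      · rw [← h0]; nlinarith [Finset.sum_nonneg fun q (_ : q ∈ Finset.univ) => sq_nonneg ‖u q‖]
      · have h4 := (pow_le_pow_left₀ (sq_nonneg _) h1 2).trans h2
        have h5 : 0 < ‖T‖ ^ 2 := by positivity
        nlinarith
    have hn : ‖((k i : ℂ) + 1)⁻¹‖ = N⁻¹ := by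
      rw [norm_inv, show ((k i : ℂ) + 1) = ((N : ℝ) : ℂ) by simp [N], Complex.norm_real,
        Real.norm_of_nonneg hN.le]
    rw [norm_smul, hn, mul_pow, pow_two N⁻¹, mul_assoc]
    refine mul_le_mul_of_nonneg_left ?_ (inv_nonneg.2 hN.le)
    rw [inv_mul_le_iff₀ hN]
    exact h3
  have hphi : ∀ a, ∑ b, phi r i (e a b) (v b) =
      ((k i : ℂ) + 1)⁻¹ • ∑ q : Fin (k i + 1) × Fin (k i + 1),
        R q.1 q.2 (∑ b, e a b (R q.2 q.1 (v b))) := by
    intro a
    simp only [phi, smul_apply, FunLike.coe_sum, Finset.sum_apply, mul_apply_eq_comp,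
      ← Finset.smul_sum, map_sum, Fintype.sum_prod_type, R]
    congr 1
    rw [Finset.sum_comm]
    exact Finset.sum_congr rfl fun _ _ => Finset.sum_comm
  calc ∑ a, ‖∑ b, phi r i (e a b) (v b)‖ ^ 2
      ≤ ∑ a, N⁻¹ * ∑ q : Fin (k i + 1) × Fin (k i + 1), ‖∑ b, e a b (R q.2 q.1 (v b))‖ ^ 2 :=
        Finset.sum_le_sum fun a _ => by rw [hphi]; exact key _
    _ = N⁻¹ * ∑ q : Fin (k i + 1) × Fin (k i + 1), ∑ a, ‖∑ b, e a b (R q.2 q.1 (v b))‖ ^ 2 := by
        rw [← Finset.mul_sum, Finset.sum_comm]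
    _ ≤ N⁻¹ * ∑ q : Fin (k i + 1) × Fin (k i + 1), K ^ 2 * ∑ b, ‖R q.2 q.1 (v b)‖ ^ 2 := by
        gcongr with q _
        exact he _
    _ = K ^ 2 * ∑ b, ‖v b‖ ^ 2 := by
        rw [← Finset.mul_sum, Finset.sum_comm]
        simp only [hR, ← Finset.mul_sum]
        field_simp

end Phi

lemma phiAll_sum {ι : Type*} (s : Finset ι) (f : ι → (Sp k H →L[ℂ] Sp k H)) (m : ℕ) :
    phiAll r m (∑ q ∈ s, f q) = ∑ q ∈ s, phiAll r m (f q) := by
  induction m with
  | zero => rfl
  | succ m ih => rw [phiAll, ih, phi_sum]; rfl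

lemma phiAll_sub (x y : (Sp k H →L[ℂ] Sp k H)) (m : ℕ) : phiAll r m (x - y) = phiAll r m x - phiAll r m y := by
  induction m with
  | zero => rfl
  | succ m ih => rw [phiAll, ih, phi_sub]; rfl

lemma phiAll_of_comm (hr : IsUnits r) {x : (Sp k H →L[ℂ] Sp k H)}
    (hx : ∀ i a b, site H i (r i a b) * x = x * site H i (r i a b)) (m : ℕ) :
    phiAll r m x = x := by
  induction m with
  | zero => rfl
  | succ m ih => rw [phiAll, ih, phi_of_comm hr (hx m)]

lemma phiAll_bound (hr : IsUnits r) {p : ℕ} {e : Fin p → Fin p → (Sp k H →L[ℂ] Sp k H)} {K : ℝ}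
    (he : ∀ v : Fin p → (Sp k H), ∑ a, ‖∑ b, e a b (v b)‖ ^ 2 ≤ K ^ 2 * ∑ b, ‖v b‖ ^ 2) (m : ℕ) :
    ∀ v : Fin p → (Sp k H), ∑ a, ‖∑ b, phiAll r m (e a b) (v b)‖ ^ 2 ≤ K ^ 2 * ∑ b, ‖v b‖ ^ 2 := by
  induction m with
  | zero => exact he
  | succ m ih => exact phi_bound hr ih

/-- An element commuting with everything outside the averaged sites keeps doing so. -/
lemma phiAll_preserve {z : (Sp k H →L[ℂ] Sp k H)} (x : (Sp k H →L[ℂ] Sp k H)) (m : ℕ)
    (hz : ∀ j < m, ∀ a b, site H j (r j a b) * z = z * site H j (r j a b))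
    (hx : z * x = x * z) : z * phiAll r m x = phiAll r m x * z := by
  induction m with
  | zero => exact hx
  | succ m ih =>
    exact phi_preserve _ z (hz m m.lt_succ_self) (ih fun j hj => hz j (hj.trans m.lt_succ_self))

lemma phiAll_mul_right {z : (Sp k H →L[ℂ] Sp k H)} (x : (Sp k H →L[ℂ] Sp k H)) (m : ℕ)
    (hz : ∀ j < m, ∀ a b, site H j (r j a b) * z = z * site H j (r j a b)) :
    phiAll r m (x * z) = phiAll r m x * z := by
  induction m with
  | zero => rfl
  | succ m ih =>
    rw [phiAll, ih fun j hj => hz j (hj.trans m.lt_succ_self),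
      phi_mul_right _ _ (hz m m.lt_succ_self)]
    rfl

/-- Averaging an operator of the first sites puts it in the algebra. -/
lemma phiAll_expand_mem (hr : IsUnits r) (m : ℕ) {x : (Sp k H →L[ℂ] Sp k H)}
    (hx : ∀ y ∈ S, diag k y * x = x * diag k y) : phiAll r m (expand m x) ∈ algOf S r := by
  refine (mem_algOf hr).2 ⟨fun y hy => phiAll_preserve _ m
    (fun j _ a b => site_comm_diag _ _) (expand_comm_diag (hx y hy)), fun i a b => ?_⟩
  have key : ∀ q, (q ≤ i → m ≤ i) →
      site H i (r i a b) * phiAll r q (expand m x) = phiAll r q (expand m x) * site H i (r i a b) := by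
    intro q
    induction q with
    | zero => exact fun h => expand_comm_site_ge (h i.zero_le) _ _
    | succ q ih =>
      intro h
      by_cases hq : q = i
      · subst hq; exact phi_comm hr _ a b
      · refine phi_preserve _ _ (fun c d => site_comm hq _ _) (ih fun h' => h ?_)
        omega
  exact key m fun h => h

/-! ### The commutant -/

lemma commutant_algOf (h : IsPairing l r) :
    (algOf (H := H) S r).commutant = algOf S.commutant l := by
  refine VonNeumannAlgebra.ext fun T => ?_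
  rw [VonNeumannAlgebra.mem_commutant_iff, mem_algOf h.left]
  constructor
  · intro hT
    refine ⟨fun y hy => hT _ ((mem_algOf h.right).2 ⟨fun s hs => ?_,
      fun i a b => site_comm_diag _ _⟩), fun i a b => hT _ ((mem_algOf h.right).2
        ⟨fun s _ => (site_comm_diag _ _).symm, fun j c d => ?_⟩)⟩
    · rw [← diag_mul, ← diag_mul, VonNeumannAlgebra.mem_commutant_iff.1 hy s hs]
    · by_cases hji : j = i
      · subst hji; rw [site_mul, site_mul, h.comm]
      · exact site_comm hji _ _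
  rintro ⟨h1, h2⟩ x hx
  obtain ⟨x1, x2⟩ := (mem_algOf h.right).1 hx
  have hword : ∀ (A : (i : ℕ) → SMat k i), ∀ z ∈ S.commutant, ∀ m,
      phiAll r m (diag k z * word H A m) * T = T * phiAll r m (diag k z * word H A m) := by
    intro A z hz m
    induction m with
    | zero => simpa [phiAll, word] using h1 z hz
    | succ m ih =>
      set Q := phiAll r m (diag k z * word H A m)
      have hQ : ∀ a b, site H m (r m a b) * Q = Q * site H m (r m a b) := fun a b =>
        phiAll_preserve _ m (fun j hj c d => site_comm (Nat.ne_of_lt hj) _ _)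
          (by rw [← mul_assoc, site_comm_diag, mul_assoc, ← word_comm_site A le_rfl, mul_assoc])
      obtain ⟨C, hC⟩ := h.span m (A m)
      have hstep : phi r m (site H m (A m)) * T = T * phi r m (site H m (A m)) := by
        rw [hC]
        simp only [site_sum, site_smul, phi_sum, phi_smul, Finset.sum_mul, Finset.mul_sum,
          smul_mul_assoc, mul_smul_comm]
        refine Finset.sum_congr rfl fun a _ => Finset.sum_congr rfl fun c _ =>
          Finset.sum_congr rfl fun b _ => Finset.sum_congr rfl fun d _ => congrArg _ ?_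
        have e : phi r m (site H m (r m b d)) = (if b = d then ((k m : ℂ) + 1)⁻¹ else 0) • 1 := by
          simp only [phi, site_mul, h.right.mul]
          by_cases hbd : b = d
          · subst hbd
            rw [if_pos rfl]
            congr 1
            rw [Finset.sum_congr rfl fun a _ => Finset.sum_eq_single_of_mem b (Finset.mem_univ _)
              fun c _ hc => by simp [hc, site_zero]]
            simp only [h.right.mul, if_true, ← site_sum, h.right.one, site_one]
          · rw [if_neg hbd, zero_smul, Finset.sum_eq_zero fun a _ => Finset.sum_eq_zero fun c _ => ?_,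
              smul_zero]
            by_cases hcb : c = b
            · subst hcb; simp [h.right.mul, Ne.symm hbd, site_zero]
            · simp [hcb, site_zero]
        rw [← site_mul, phi_mul_left _ _ (fun p q => by rw [site_mul, site_mul, h.comm]), e,
          mul_smul_comm, mul_one, smul_mul_assoc, mul_smul_comm, h2]
      rw [phiAll, word, ← mul_assoc, phiAll_mul_right _ m
        (fun j hj c d => site_comm (Nat.ne_of_lt hj) _ _), phi_mul_left _ _ hQ, mul_assoc, hstep,
        ← mul_assoc, ih, mul_assoc]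
  have hm : ∀ m, expand m x * T = T * expand m x := by
    intro m
    rw [← phiAll_of_comm h.right (fun i a b => expand_comm_site (x2 i a b)) m, expand_eq_sum_word]
    simp only [phiAll_sum, Finset.sum_mul, Finset.mul_sum]
    refine Finset.sum_congr rfl fun p _ => Finset.sum_congr rfl fun q _ => hword _ _ ?_ m
    refine VonNeumannAlgebra.mem_commutant_iff.2 fun y hy => ContinuousLinearMap.ext fun a => ?_
    have hi : diag k y (ins (up q) a) = ins (up q) (y a) := lp.ext (funext fun c => by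
      rw [diag_apply, ins_apply, ins_apply]; split_ifs <;> simp)
    simp only [mul_apply_eq_comp, entry_apply, ← hi, ← diag_apply (k := k)]
    exact congrArg (fun w : (Sp k H) => w (up p)) (DFunLike.congr_fun (x1 y hy) _)
  refine ContinuousLinearMap.ext fun v => ?_
  refine tendsto_nhds_unique (expand_tendsto x (T v)) (((T.continuous.tendsto _).comp
    (expand_tendsto x v)).congr fun m => ?_)
  exact (DFunLike.congr_fun (hm m) v).symm

/-! ### Matrix closeness -/

lemma mat_sub {n : ℕ} (f g : Hd k n → Hd k n → (H →L[ℂ] H)) :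
    (mat n fun a b => f a b - g a b : (Sp k H →L[ℂ] Sp k H)) = mat n f - mat n g :=
  op_ext fun v c => by
    simp only [sub_apply, lp.coeFn_sub, Pi.sub_apply, mat_apply]
    split_ifs <;> simp [Finset.sum_sub_distrib]

lemma sum_norm_up_le (n : ℕ) (v : (Sp k H)) : ∑ h : Hd k n, ‖v (up h)‖ ^ 2 ≤ ‖v‖ ^ 2 := by
  refine le_trans (le_of_eq ?_) (pow_le_pow_left₀ (norm_nonneg _) (norm_blk_zero_le n v) 2)
  rw [← inner_self_eq_norm_sq (𝕜 := ℂ) (blk n 0 v), inner_blk, map_sum]
  exact Finset.sum_congr rfl fun h _ => (inner_self_eq_norm_sq (𝕜 := ℂ) _).symm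

lemma norm_sum_ins (n : ℕ) (w : Hd k n → H) :
    ‖(∑ h, ins (up h) (w h) : (Sp k H))‖ ^ 2 = ∑ h, ‖w h‖ ^ 2 := by
  rw [← inner_self_eq_norm_sq (𝕜 := ℂ), sum_inner, map_sum]
  refine Finset.sum_congr rfl fun h _ => ?_
  rw [inner_ins, lp.coeFn_sum, Finset.sum_apply, Finset.sum_eq_single_of_mem h (Finset.mem_univ _),
    ins_apply, if_pos rfl]
  · exact inner_self_eq_norm_sq (𝕜 := ℂ) _
  · intro g _ hg
    rw [ins_apply, if_neg fun he => hg ?_]
    simpa [head_up] using (congrArg (head n) he).symm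

/-- The operators with given entries, as a bounded family. -/
lemma mat_bound {n p : ℕ} {f : Fin p → Fin p → Hd k n → Hd k n → (H →L[ℂ] H)} {K : ℝ}
    (hf : ∀ w : Fin p × Hd k n → H,
      ∑ a : Fin p × Hd k n, ‖∑ b : Fin p × Hd k n, f a.1 b.1 a.2 b.2 (w b)‖ ^ 2 ≤
        K ^ 2 * ∑ b, ‖w b‖ ^ 2)
    (v : Fin p → (Sp k H)) :
    ∑ a, ‖∑ b, mat n (f a b) (v b)‖ ^ 2 ≤ K ^ 2 * ∑ b, ‖v b‖ ^ 2 := by
  have e : ∀ a, ∑ b, mat n (f a b) (v b) =
      ∑ h, ins (up h) (∑ q : Fin p × Hd k n, f a q.1 h q.2 (v q.1 (up q.2))) := by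
    intro a
    simp only [mat, FunLike.coe_sum, Finset.sum_apply, ContinuousLinearMap.comp_apply, ev_apply,
      map_sum, Fintype.sum_prod_type]
    exact Finset.sum_comm
  simp only [e, norm_sum_ins]
  rw [← Fintype.sum_prod_type fun q : Fin p × Hd k n =>
    ‖∑ r : Fin p × Hd k n, f q.1 r.1 q.2 r.2 (v r.1 (up r.2))‖ ^ 2]
  refine (hf fun q => v q.1 (up q.2)).trans (mul_le_mul_of_nonneg_left ?_ (sq_nonneg K))
  rw [Fintype.sum_prod_type]
  exact Finset.sum_le_sum fun b _ => sum_norm_up_le n (v b)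

lemma sum_sq_le_of_wLim {α : Type*} {lim : Ultrafilter α} {ι : Type*} [Fintype ι]
    {x : α → ι → (Sp k H)} {z : ι → (Sp k H)} {C : ℝ} (hz : ∀ a, WLim lim (fun m => x m a) (z a))
    (hx : ∀ m, ∑ a, ‖x m a‖ ^ 2 ≤ C) : ∑ a, ‖z a‖ ^ 2 ≤ C := by
  obtain ⟨m₀, -⟩ := (Filter.eventually_true (lim : Filter α)).exists
  have hC : 0 ≤ C := (Finset.sum_nonneg fun a _ => sq_nonneg _).trans (hx m₀)
  set Z := ∑ a, ‖z a‖ ^ 2
  have hZ : 0 ≤ Z := Finset.sum_nonneg fun a _ => sq_nonneg _
  have h : Tendsto (fun m => (∑ a, ⟪x m a, z a⟫_ℂ).re) (lim : Filter α) (𝓝 Z) := by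
    have h1 := (Complex.continuous_re.tendsto _).comp
      (tendsto_finsetSum Finset.univ fun a _ => hz a (z a))
    convert h1 using 2
    · simp [Complex.re_sum]
    · rw [Complex.re_sum]
      exact Finset.sum_congr rfl fun a _ => (inner_self_eq_norm_sq (𝕜 := ℂ) (z a)).symm
  have h2 : Z ≤ Real.sqrt C * Real.sqrt Z := by
    refine le_of_tendsto h (Eventually.of_forall fun m => ?_)
    rw [Complex.re_sum]
    refine (Finset.sum_le_sum fun a _ => (RCLike.re_le_norm (⟪x m a, z a⟫_ℂ)).trans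
      (norm_inner_le_norm _ _)).trans ((Real.sum_mul_le_sqrt_mul_sqrt _ _ _).trans ?_)
    gcongr
    · exact hx m
  have h3 := Real.mul_self_sqrt hC
  have h4 := Real.mul_self_sqrt hZ
  nlinarith [Real.sqrt_nonneg C, Real.sqrt_nonneg Z, sq_nonneg (Real.sqrt C - Real.sqrt Z)]

lemma entry_mem {M : VonNeumannAlgebra H} (hr : IsUnits r) {n : ℕ} {x : (Sp k H →L[ℂ] Sp k H)}
    (hx : x ∈ algOf M.commutant r) (h h' : Hd k n) : entry n x h h' ∈ M := by
  refine mem_of_commute fun y hy => ContinuousLinearMap.ext fun a => ?_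
  have hi : diag k y (ins (up h') a) = ins (up h') (y a) := lp.ext (funext fun c => by
    rw [diag_apply, ins_apply, ins_apply]; split_ifs <;> simp)
  simp only [mul_apply_eq_comp, entry_apply, ← hi, ← diag_apply (k := k)]
  exact congrArg (fun w : (Sp k H) => w (up h)) (DFunLike.congr_fun (((mem_algOf hr).1 hx).1 y hy) _)

theorem matWithin_algOf (hr : IsUnits r) {M N : VonNeumannAlgebra H} {d : ℝ}
    (h : MatWithin M N d) : MatWithin (algOf (k := k) M.commutant r) (algOf N.commutant r) d := by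
  intro p X hX hX1
  have hlevel : ∀ m, ∃ Y : Fin p → Fin p → (Sp k H →L[ℂ] Sp k H), (∀ a b, Y a b ∈ algOf N.commutant r) ∧
      (∀ v : Fin p → (Sp k H), ∑ a, ‖∑ b, Y a b (v b)‖ ^ 2 ≤ 1 ^ 2 * ∑ b, ‖v b‖ ^ 2) ∧
      ∀ v : Fin p → (Sp k H),
        ∑ a, ‖∑ b, (expand m (X a b) - Y a b) (v b)‖ ^ 2 ≤ d ^ 2 * ∑ b, ‖v b‖ ^ 2 := by
    intro m
    set e := Fintype.equivFin (Fin p × Hd k m)
    set X' := fun α β => entry m (X (e.symm α).1 (e.symm β).1) (e.symm α).2 (e.symm β).2 with hX'
    have hX'1 : MatContraction X' := by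
      intro w
      rw [← e.sum_comp, ← e.sum_comp]
      simp only [hX', e.symm_apply_apply, ← e.sum_comp fun q => entry m _ _ _ (w q)]
      rw [Fintype.sum_prod_type, Fintype.sum_prod_type]
      refine le_trans (Finset.sum_le_sum fun a _ => ?_)
        (le_trans (hX1 fun b => ∑ h, ins (up h) (w (e (b, h)))) (le_of_eq ?_))
      · refine le_trans (le_of_eq ?_) (sum_norm_up_le m _)
        refine Finset.sum_congr rfl fun h _ => ?_
        simp only [entry_apply, Fintype.sum_prod_type, map_sum, lp.coeFn_sum, Finset.sum_apply]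
      · exact Finset.sum_congr rfl fun b _ => norm_sum_ins m _
    obtain ⟨Y', hY', hY'1, hd'⟩ := h _ X' (fun _ _ => entry_mem hr (hX _ _) _ _) hX'1
    set f : Fin p → Fin p → Hd k m → Hd k m → (H →L[ℂ] H) :=
      fun a b h h' => Y' (e (a, h)) (e (b, h')) with hf
    refine ⟨fun a b => phiAll r m (expand m (mat m (f a b))), fun a b => phiAll_expand_mem hr m
      fun y hy => op_ext fun v c => ?_, phiAll_bound hr (expand_bound (mat_bound fun w => ?_)) m,
      fun v => ?_⟩
    · have hy' := fun q => VonNeumannAlgebra.mem_commutant_iff.1 hy (f a b (head m c) q) (hY' _ _)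
      simp only [mul_apply_eq_comp, diag_apply, mat_apply]
      split_ifs with hc
      · rw [map_sum]
        exact Finset.sum_congr rfl fun q _ => (DFunLike.congr_fun (hy' q) _).symm
      · simp
    · have := hY'1 (fun q => w (e.symm q))
      rw [← e.sum_comp, ← e.sum_comp] at this
      simp only [← e.sum_comp fun q => Y' _ q (w (e.symm q)), e.symm_apply_apply] at this
      simpa [hf] using this
    · have hkey : ∀ a b, expand m (X a b) - phiAll r m (expand m (mat m (f a b))) =
          phiAll r m (expand m (mat m fun h h' => entry m (X a b) h h' - f a b h h')) := by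
        intro a b
        rw [mat_sub, expand_sub, phiAll_sub, expand_entry,
          phiAll_of_comm hr fun i c q => expand_comm_site (((mem_algOf hr).1 (hX a b)).2 i c q)]
      simp only [hkey]
      refine phiAll_bound hr (expand_bound (mat_bound fun w => ?_)) m v
      have := hd' (fun q => w (e.symm q))
      rw [← e.sum_comp, ← e.sum_comp] at this
      simp only [← e.sum_comp fun q => (X' _ q - Y' _ q) (w (e.symm q)), e.symm_apply_apply] at this
      simpa [hX', hf] using this
  choose Y hYmem hY1 hYd using hlevel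
  let lim : Ultrafilter ℕ := Ultrafilter.of atTop
  have hb : ∀ a b m (v : (Sp k H)), ‖Y m a b v‖ ≤ ‖v‖ := by
    intro a b m v
    refine (sq_le_sq₀ (norm_nonneg _) (norm_nonneg _)).1 ?_
    have h1 := hY1 m (Pi.single b v)
    have e1 : ∀ a', ∑ b', Y m a' b' ((Pi.single b v : Fin p → (Sp k H)) b') = Y m a' b v := fun a' => by
      rw [Finset.sum_eq_single b] <;> simp +contextual
    have e2 : ∑ b', ‖(Pi.single b v : Fin p → (Sp k H)) b'‖ ^ 2 = ‖v‖ ^ 2 := by
      rw [Finset.sum_eq_single b] <;> simp +contextual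
    simp only [e1, e2, one_pow, one_mul] at h1
    exact (Finset.single_le_sum (fun a' _ => sq_nonneg ‖Y m a' b v‖) (Finset.mem_univ a)).trans h1
  choose Z hZ using fun a b => exists_linear_wLim lim (fun m => (Y m a b).toLinearMap) ⊤
    fun v _ => ⟨‖v‖, fun m => hb a b m v⟩
  let Z' : Fin p → Fin p → (Sp k H →L[ℂ] Sp k H) := fun a b => (Z a b).mkContinuous 1 fun v => by
    rw [one_mul]
    exact (hZ a b v trivial).norm_le (Eventually.of_forall fun m => hb a b m v)
  have hW : ∀ a b v, WLim lim (fun m => Y m a b v) (Z' a b v) := fun a b v => hZ a b v trivial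
  refine ⟨Z', fun a b => ?_, fun v => sum_sq_le_of_wLim
    (fun a => WLim.sum _ fun b _ => hW a b (v b)) fun m => by simpa using hY1 m v, fun v => ?_⟩
  · have hc : ∀ g : (Sp k H →L[ℂ] Sp k H), (∀ m, g * Y m a b = Y m a b * g) → g * Z' a b = Z' a b * g :=
      fun g hg => ContinuousLinearMap.ext fun v =>
        ((hW a b v).map g).unique ((hW a b (g v)).congr
          (Eventually.of_forall fun m => (DFunLike.congr_fun (hg m) v).symm))
    exact (mem_algOf hr).2 ⟨fun y hy => hc _ fun m => ((mem_algOf hr).1 (hYmem m a b)).1 y hy,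
      fun i c q => hc _ fun m => ((mem_algOf hr).1 (hYmem m a b)).2 i c q⟩
  · refine sum_sq_le_of_wLim (lim := lim) (fun a => WLim.sum _ fun b _ => ?_) fun m => hYd m v
    refine WLim.sub (fun y => ?_) (hW a b (v b))
    exact (((expand_tendsto (X a b) (v b)).inner (tendsto_const_nhds (x := y))).mono_left
      (Ultrafilter.of_le atTop))

end Vale.Agent.P096.AT.ITP
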