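import Mathlib

/-!
# P096: families indexed by finitely supported configurations of sites

`expand n x` is the compression of `x` to the first `n` sites, tensored with the identity on the
other sites; `site i A` is the matrix `A` acting at site `i`.
-/

noncomputable section

namespace Vale.Agent.P096.AT.ITP

open scoped InnerProductSpace
open Filter Topology

universe u

variable {k : ℕ → ℕ}

/-- The basis of a site. -/
abbrev Idx (k : ℕ → ℕ) (i : ℕ) : Type := Fin (k i + 1) × Fin (k i + 1)

/-- Configurations, equal to the base one at almost all sites. -/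
def Cf (k : ℕ → ℕ) : Type := {c : (i : ℕ) → Idx k i // ∃ n, ∀ i, n ≤ i → c i = 0}

/-- Configurations of the first `n` sites. -/
abbrev Hd (k : ℕ → ℕ) (n : ℕ) : Type := (i : Fin n) → Idx k i.val

instance : Zero (Cf k) := ⟨⟨fun _ => 0, 0, fun _ _ => rfl⟩⟩

instance : DecidableEq (Cf k) := Classical.decEq _

lemma Cf.ext {c d : Cf k} (h : ∀ i, c.1 i = d.1 i) : c = d := Subtype.ext (funext h)

lemma zero_apply (i : ℕ) : (0 : Cf k).1 i = 0 := rfl

/-- The first `n` coordinates. -/
def head (n : ℕ) (c : Cf k) : Hd k n := fun i => c.1 i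

/-- The coordinates from `n` on. -/
def tail (n : ℕ) (c : Cf k) : Cf k :=
  ⟨fun i => if i < n then 0 else c.1 i, c.2.imp fun m hm i hi => by simp [hm i hi]⟩

/-- The first coordinates from `h`, the others from `t`. -/
def glue {n : ℕ} (h : Hd k n) (t : Cf k) : Cf k :=
  ⟨fun i => if hi : i < n then h ⟨i, hi⟩ else t.1 i, by
    obtain ⟨m, hm⟩ := t.2
    refine ⟨max n m, fun i hi => ?_⟩
    exact (dif_neg (not_lt.2 ((le_max_left _ _).trans hi))).trans
      (hm i ((le_max_right _ _).trans hi))⟩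

/-- Extension by the base coordinates. -/
def up {n : ℕ} (h : Hd k n) : Cf k := glue h 0

/-- Change one coordinate. -/
def upd (c : Cf k) (i : ℕ) (q : Idx k i) : Cf k :=
  ⟨Function.update c.1 i q, by
    obtain ⟨m, hm⟩ := c.2
    refine ⟨max m (i + 1), fun j hj => ?_⟩
    have h1 : i + 1 ≤ j := (le_max_right _ _).trans hj
    rw [Function.update_of_ne (by omega)]
    exact hm j ((le_max_left _ _).trans hj)⟩

section Cf

variable {n : ℕ} (h : Hd k n) (c t : Cf k)

lemma glue_apply (i : ℕ) : (glue h t).1 i = if hi : i < n then h ⟨i, hi⟩ else t.1 i := rfl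

lemma tail_apply (i : ℕ) : (tail n c).1 i = if i < n then 0 else c.1 i := rfl

lemma head_glue : head n (glue h t) = h := funext fun i => by simp [head, glue_apply]

lemma head_up : head n (up h) = h := head_glue h 0

lemma tail_glue : tail n (glue h t) = tail n t := Cf.ext fun i => by
  by_cases hi : i < n <;> simp [tail_apply, glue_apply, hi]

lemma tail_zero : tail n (0 : Cf k) = 0 := Cf.ext fun i => by simp [tail_apply, zero_apply]

lemma tail_up : tail n (up h) = 0 := (tail_glue h 0).trans tail_zero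

lemma tail_tail : tail n (tail n c) = tail n c := Cf.ext fun i => by
  by_cases hi : i < n <;> simp [tail_apply, hi]

lemma glue_head_tail : glue (head n c) (tail n c) = c := Cf.ext fun i => by
  by_cases hi : i < n <;> simp [tail_apply, glue_apply, head, hi]

lemma up_head {c : Cf k} (hc : tail n c = 0) : up (head n c) = c := by
  conv_rhs => rw [← glue_head_tail (n := n) c, hc]
  rfl

lemma exists_tail_eq_zero : ∃ m, ∀ n, m ≤ n → tail n c = 0 :=
  c.2.imp fun m hm n hn => Cf.ext fun i => by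
    by_cases hi : i < n
    · simp [tail_apply, zero_apply, hi]
    · simp [tail_apply, zero_apply, hi, hm i (hn.trans (not_lt.1 hi))]

lemma upd_apply_same (i : ℕ) (q : Idx k i) : (upd c i q).1 i = q := Function.update_self ..

lemma upd_apply_ne {i j : ℕ} (q : Idx k i) (hj : j ≠ i) : (upd c i q).1 j = c.1 j :=
  Function.update_of_ne hj ..

lemma upd_upd (i : ℕ) (p q : Idx k i) : upd (upd c i p) i q = upd c i q :=
  Subtype.ext (Function.update_idem ..)

lemma upd_self (i : ℕ) : upd c i (c.1 i) = c := Subtype.ext (Function.update_eq_self ..)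

lemma upd_comm {i j : ℕ} (hij : i ≠ j) (p : Idx k i) (q : Idx k j) :
    upd (upd c i p) j q = upd (upd c j q) i p :=
  Subtype.ext (Function.update_comm hij.symm q p c.1).symm

lemma tail_upd_lt {i : ℕ} (q : Idx k i) (hi : i < n) : tail n (upd c i q) = tail n c :=
  Cf.ext fun j => by
    by_cases hj : j < n
    · simp [tail_apply, hj]
    · simp [tail_apply, hj, upd_apply_ne c q (show j ≠ i by omega)]

lemma head_upd_ge {i : ℕ} (q : Idx k i) (hi : n ≤ i) : head n (upd c i q) = head n c :=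
  funext fun j => upd_apply_ne c q (by omega)

lemma tail_upd_ge {i : ℕ} (q : Idx k i) (hi : n ≤ i) :
    tail n (upd c i q) = upd (tail n c) i q :=
  Cf.ext fun j => by
    by_cases hj : j = i
    · subst hj; simp [tail_apply, upd_apply_same, not_lt.2 hi]
    · simp [tail_apply, upd_apply_ne _ q hj]

lemma glue_upd_ge {i : ℕ} (q : Idx k i) (hi : n ≤ i) : glue h (upd t i q) = upd (glue h t) i q :=
  Cf.ext fun j => by
    by_cases hj : j = i
    · subst hj; simp [glue_apply, upd_apply_same, not_lt.2 hi]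
    · simp [glue_apply, upd_apply_ne _ q hj]

lemma glue_head_upd {i : ℕ} (q : Idx k i) (hi : i < n) :
    glue (head n (upd c i q)) t = upd (glue (head n c) t) i q :=
  Cf.ext fun j => by
    by_cases hj : j = i
    · subst hj; simp [glue_apply, upd_apply_same, head, hi]
    · simp [glue_apply, head, upd_apply_ne _ q hj]

instance : Countable (Cf k) := by
  refine Function.Surjective.countable (f := fun s : Σ n, Hd k n => up s.2) fun c => ?_
  obtain ⟨m, hm⟩ := exists_tail_eq_zero c
  exact ⟨⟨m, head m c⟩, up_head (hm m le_rfl)⟩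

end Cf

/-- The tails from `n` on. -/
abbrev Tl (k : ℕ → ℕ) (n : ℕ) : Type := {t : Cf k // tail n t = t}

/-- A configuration is its head and its tail. -/
def split (n : ℕ) : Hd k n × Tl k n ≃ Cf k where
  toFun p := glue p.1 p.2.1
  invFun c := (head n c, ⟨tail n c, tail_tail c⟩)
  left_inv p := Prod.ext (head_glue _ _) (Subtype.ext ((tail_glue _ _).trans p.2.2))
  right_inv c := glue_head_tail c

variable {H : Type u} [NormedAddCommGroup H] [InnerProductSpace ℂ H]

/-- Square summable families indexed by the configurations. -/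
abbrev Sp (k : ℕ → ℕ) (H : Type u) [NormedAddCommGroup H] [InnerProductSpace ℂ H] : Type u :=
  lp (fun _ : Cf k => H) 2

lemma hasSum_norm_sq (v : (Sp k H)) : HasSum (fun c => ‖v c‖ ^ 2) (‖v‖ ^ 2) := by
  simpa using lp.hasSum_norm (p := 2) (by norm_num) v

omit [InnerProductSpace ℂ H] in
lemma memℓp_two {f : Cf k → H} (hf : Summable fun c => ‖f c‖ ^ 2) : Memℓp f 2 :=
  memℓp_gen (by simpa using hf)

lemma op_ext {S T : (Sp k H →L[ℂ] Sp k H)} (h : ∀ v c, S v c = T v c) : S = T :=
  ContinuousLinearMap.ext fun v => lp.ext (funext (h v))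

/-- The vector at one configuration. -/
def ins (c : Cf k) : H →L[ℂ] (Sp k H) := lp.singleContinuousLinearMap ℂ (fun _ : Cf k => H) 2 c

/-- The entry at one configuration. -/
def ev (c : Cf k) : (Sp k H) →L[ℂ] H := lp.evalCLM ℂ (fun _ : Cf k => H) 2 c

lemma ev_apply (c : Cf k) (v : (Sp k H)) : ev c v = v c := rfl

lemma ins_apply (c d : Cf k) (x : H) : ins c x d = if d = c then x else 0 := by
  change (lp.single 2 c x : (Sp k H)) d = _
  split_ifs with h
  · subst h; rw [lp.single_apply_self]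
  · rw [lp.single_apply_ne _ _ _ h]

lemma inner_ins (c : Cf k) (x : H) (v : (Sp k H)) : ⟪ins c x, v⟫_ℂ = ⟪x, v c⟫_ℂ :=
  lp.inner_single_left c x v

lemma norm_ins (c : Cf k) (x : H) : ‖(ins c x : (Sp k H))‖ = ‖x‖ := by
  have h : (ins c x : (Sp k H)) = lp.single 2 c x := rfl
  rw [h, lp.norm_single (p := 2) (by norm_num)]

variable {n : ℕ}

/-- The slice of the tail `t`, put at the base tail. -/
def blk (n : ℕ) (t : Cf k) : (Sp k H →L[ℂ] Sp k H) := ∑ h : Hd k n, (ins (up h)).comp (ev (glue h t))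

lemma blk_apply (n : ℕ) (t : Cf k) (v : (Sp k H)) (c : Cf k) :
    blk n t v c = if tail n c = 0 then v (glue (head n c) t) else 0 := by
  simp only [blk, FunLike.coe_sum, Finset.sum_apply, lp.coeFn_sum, ContinuousLinearMap.comp_apply,
    ins_apply, ev_apply]
  by_cases hc : tail n c = 0
  · rw [if_pos hc, Finset.sum_eq_single (head n c)]
    · rw [if_pos (up_head hc).symm]
    · intro h _ hh
      rw [if_neg fun he => hh (by rw [he, head_up])]
    · simp
  · rw [if_neg hc]
    exact Finset.sum_eq_zero fun h _ => if_neg fun he => hc (by rw [he, tail_up])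

lemma blk_up (t : Cf k) (v : (Sp k H)) (h : Hd k n) : blk n t v (up h) = v (glue h t) := by
  rw [blk_apply, if_pos (tail_up h), head_up]

lemma blk_zero_blk (t : Cf k) (v : (Sp k H)) : blk n 0 (blk n t v) = blk n t v :=
  lp.ext (funext fun c => by
    rw [blk_apply (v := blk n t v)]
    split_ifs with hc
    · rw [show glue (head n c) (0 : Cf k) = c from up_head hc]
    · rw [blk_apply, if_neg hc])

lemma inner_blk (t : Cf k) (v w : (Sp k H)) :
    ⟪blk n t v, blk n t w⟫_ℂ = ∑ h : Hd k n, ⟪v (glue h t), w (glue h t)⟫_ℂ := by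
  conv_lhs => arg 2; rw [blk, FunLike.coe_sum, Finset.sum_apply]
  rw [sum_inner]
  exact Finset.sum_congr rfl fun h _ => by
    rw [ContinuousLinearMap.comp_apply, inner_ins, ev_apply, blk_up]

lemma hasSum_inner_blk (n : ℕ) (v w : (Sp k H)) :
    HasSum (fun t : Tl k n => ⟪blk n t.1 v, blk n t.1 w⟫_ℂ) ⟪v, w⟫_ℂ := by
  have h : HasSum (fun p : Tl k n × Hd k n => ⟪v (glue p.2 p.1.1), w (glue p.2 p.1.1)⟫_ℂ)
      ⟪v, w⟫_ℂ :=
    ((Equiv.prodComm _ _).trans (split n)).hasSum_iff.2 (lp.hasSum_inner v w)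
  refine h.prod_fiberwise fun t => ?_
  rw [inner_blk]
  exact hasSum_fintype _

lemma hasSum_norm_blk (n : ℕ) (v : (Sp k H)) :
    HasSum (fun t : Tl k n => ‖blk n t.1 v‖ ^ 2) (‖v‖ ^ 2) := by
  have h := Complex.hasSum_re (hasSum_inner_blk n v v)
  simpa [inner_self_eq_norm_sq_to_K, ← Complex.ofReal_pow] using h

lemma norm_blk_zero_le (n : ℕ) (v : (Sp k H)) : ‖blk n 0 v‖ ≤ ‖v‖ :=
  (sq_le_sq₀ (norm_nonneg _) (norm_nonneg _)).1
    (le_hasSum (hasSum_norm_blk n v) ⟨0, tail_zero⟩ fun _ _ => sq_nonneg _)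

/-- The values of `expand n x v`. -/
def expandFun (n : ℕ) (x : (Sp k H →L[ℂ] Sp k H)) (v : (Sp k H)) (c : Cf k) : H :=
  x (blk n (tail n c) v) (up (head n c))

lemma summable_expandFun (n : ℕ) (x : (Sp k H →L[ℂ] Sp k H)) (v : (Sp k H)) :
    Summable fun c => ‖expandFun n x v c‖ ^ 2 := by
  have h : ∀ a : Hd k n, Summable fun t : Tl k n => ‖expandFun n x v (glue a t.1)‖ ^ 2 := fun a => by
    refine Summable.of_nonneg_of_le (fun _ => sq_nonneg _) (fun t => ?_)
      ((hasSum_norm_blk n v).summable.mul_left (‖x‖ ^ 2))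
    rw [expandFun, tail_glue, t.2, ← mul_pow]
    exact pow_le_pow_left₀ (norm_nonneg _)
      ((lp.norm_apply_le_norm (by norm_num) _ _).trans (x.le_opNorm _)) 2
  refine (split n).summable_iff.1 ?_
  exact (summable_prod_of_nonneg fun _ => sq_nonneg _).2 ⟨h, (hasSum_fintype _).summable⟩

/-- `expand n x` as a linear map. -/
def expandLin (n : ℕ) (x : (Sp k H →L[ℂ] Sp k H)) : (Sp k H) →ₗ[ℂ] (Sp k H) where
  toFun v := ⟨expandFun n x v, memℓp_two (summable_expandFun n x v)⟩
  map_add' v w := lp.ext (funext fun c => by simp [expandFun, map_add]; rfl)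
  map_smul' a v := lp.ext (funext fun c => by simp [expandFun, map_smul])

lemma expandLin_apply (x : (Sp k H →L[ℂ] Sp k H)) (v : (Sp k H)) (c : Cf k) :
    expandLin n x v c = x (blk n (tail n c) v) (up (head n c)) := rfl

lemma blk_expandLin (x : (Sp k H →L[ℂ] Sp k H)) (v : (Sp k H)) {t : Cf k} (ht : tail n t = t) :
    blk n t (expandLin n x v) = blk n 0 (x (blk n t v)) :=
  lp.ext (funext fun c => by
    rw [blk_apply, blk_apply (v := x _)]
    split_ifs with hc
    · rw [expandLin_apply, tail_glue, ht, head_glue, up]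
    · rfl)

lemma expandLin_bound (n : ℕ) (x : (Sp k H →L[ℂ] Sp k H)) (v : (Sp k H)) : ‖expandLin n x v‖ ≤ ‖x‖ * ‖v‖ := by
  refine (sq_le_sq₀ (norm_nonneg _) (by positivity)).1 ?_
  rw [mul_pow]
  refine hasSum_le (fun t => ?_) (hasSum_norm_blk n (expandLin n x v))
    ((hasSum_norm_blk n v).mul_left (‖x‖ ^ 2))
  rw [blk_expandLin x v t.2, ← mul_pow]
  exact pow_le_pow_left₀ (norm_nonneg _) ((norm_blk_zero_le n _).trans (x.le_opNorm _)) 2

/-- The compression of `x` to the first `n` sites, tensored with the identity of the others. -/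
def expand (n : ℕ) (x : (Sp k H →L[ℂ] Sp k H)) : (Sp k H →L[ℂ] Sp k H) := (expandLin n x).mkContinuous ‖x‖ (expandLin_bound n x)

lemma expand_apply (n : ℕ) (x : (Sp k H →L[ℂ] Sp k H)) (v : (Sp k H)) (c : Cf k) :
    expand n x v c = x (blk n (tail n c) v) (up (head n c)) := rfl

lemma blk_expand (x : (Sp k H →L[ℂ] Sp k H)) (v : (Sp k H)) {t : Cf k} (ht : tail n t = t) :
    blk n t (expand n x v) = blk n 0 (x (blk n t v)) := blk_expandLin x v ht

lemma norm_expand_le (n : ℕ) (x : (Sp k H →L[ℂ] Sp k H)) : ‖expand n x‖ ≤ ‖x‖ := by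
  unfold expand
  exact LinearMap.mkContinuous_norm_le _ (norm_nonneg x) _

lemma expand_add (n : ℕ) (x y : (Sp k H →L[ℂ] Sp k H)) : expand n (x + y) = expand n x + expand n y :=
  op_ext fun v c => by simp [expand_apply]

lemma expand_sub (n : ℕ) (x y : (Sp k H →L[ℂ] Sp k H)) : expand n (x - y) = expand n x - expand n y :=
  op_ext fun v c => by simp [expand_apply]

lemma expand_smul (n : ℕ) (a : ℂ) (x : (Sp k H →L[ℂ] Sp k H)) : expand n (a • x) = a • expand n x :=
  op_ext fun v c => by simp [expand_apply]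

/-- Matrices keep their bound. -/
lemma expand_bound {m : ℕ} {e : Fin m → Fin m → (Sp k H →L[ℂ] Sp k H)} {K : ℝ}
    (he : ∀ w : Fin m → (Sp k H), ∑ a, ‖∑ b, e a b (w b)‖ ^ 2 ≤ K ^ 2 * ∑ b, ‖w b‖ ^ 2)
    (v : Fin m → (Sp k H)) :
    ∑ a, ‖∑ b, expand n (e a b) (v b)‖ ^ 2 ≤ K ^ 2 * ∑ b, ‖v b‖ ^ 2 := by
  refine hasSum_le (fun t : Tl k n => ?_)
    (hasSum_sum fun a _ => hasSum_norm_blk n (∑ b, expand n (e a b) (v b)))
    ((hasSum_sum fun b _ => hasSum_norm_blk n (v b)).mul_left (K ^ 2))
  refine le_trans (Finset.sum_le_sum fun a _ => ?_) (he fun b => blk n t.1 (v b))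
  rw [map_sum]
  simp only [blk_expand _ _ t.2]
  rw [← map_sum]
  exact pow_le_pow_left₀ (norm_nonneg _) (norm_blk_zero_le n _) 2

section

variable [CompleteSpace H]

lemma expand_star (n : ℕ) (x : (Sp k H →L[ℂ] Sp k H)) : expand n (star x) = star (expand n x) := by
  rw [ContinuousLinearMap.star_eq_adjoint (expand n x), ContinuousLinearMap.eq_adjoint_iff]
  intro v w
  refine ((hasSum_inner_blk n (expand n (star x) v) w)).unique ?_
  refine (hasSum_inner_blk n v (expand n x w)).congr_fun fun t => ?_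
  have hP : ∀ p q : (Sp k H), ⟪blk n 0 p, q⟫_ℂ = ⟪p, blk n 0 q⟫_ℂ := fun p q => by
    conv_lhs => arg 2; rw [blk, FunLike.coe_sum, Finset.sum_apply]
    conv_rhs => arg 3; rw [blk, FunLike.coe_sum, Finset.sum_apply]
    rw [sum_inner, inner_sum]
    refine Finset.sum_congr rfl fun h _ => ?_
    rw [ContinuousLinearMap.comp_apply, ContinuousLinearMap.comp_apply, inner_ins, ← inner_conj_symm (p : (Sp k H)),
      inner_ins, inner_conj_symm]
    rfl
  rw [blk_expand _ _ t.2, blk_expand _ _ t.2, hP, blk_zero_blk, ← hP (blk n t.1 v), blk_zero_blk,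
    ContinuousLinearMap.star_eq_adjoint, ContinuousLinearMap.adjoint_inner_left]

omit [CompleteSpace H] in
lemma expand_tendsto (x : (Sp k H →L[ℂ] Sp k H)) (v : (Sp k H)) :
    Tendsto (fun n => expand n x v) atTop (𝓝 (x v)) := by
  have hblk : ∀ (n : ℕ) (w : (Sp k H)) (t : Cf k), (∀ c, tail n c ≠ 0 → w c = 0) → tail n t = t → t ≠ 0 →
      blk n t w = 0 := by
    intro n w t hw ht ht0
    refine lp.ext (funext fun c => ?_)
    rw [blk_apply]
    split_ifs with hc
    · exact hw _ (by rwa [tail_glue, ht])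
    · rfl
  have hproj : ∀ w : (Sp k H), Tendsto (fun n => blk n 0 w) atTop (𝓝 w) := by
    intro w
    rw [Metric.tendsto_atTop]
    intro ε hε
    obtain ⟨s, hs⟩ := ((lp.hasSum_single (by norm_num) w).eventually
      (Metric.ball_mem_nhds w (half_pos hε))).exists
    set p : (Sp k H) := ∑ c ∈ s, lp.single 2 c (w c)
    choose m hm using fun c : Cf k => exists_tail_eq_zero c
    refine ⟨s.sup m, fun n hn => ?_⟩
    have hp : blk n 0 p = p := lp.ext (funext fun c => by
      rw [blk_apply]
      split_ifs with hc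
      · rw [show glue (head n c) (0 : Cf k) = c from up_head hc]
      · simp only [p, lp.coeFn_sum, Finset.sum_apply]
        exact (Finset.sum_eq_zero fun d hd => lp.single_apply_ne _ _ _ fun he : c = d =>
          hc (he ▸ hm d n ((Finset.le_sup hd).trans hn))).symm)
    have hd : ‖p - w‖ < ε / 2 := by simpa [dist_eq_norm] using hs
    calc dist (blk n 0 w) w ≤ ‖blk n 0 (w - p)‖ + ‖p - w‖ := by
          rw [dist_eq_norm, map_sub, hp]
          exact norm_sub_le_norm_sub_add_norm_sub _ _ _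
      _ ≤ ‖w - p‖ + ‖p - w‖ := by gcongr; exact norm_blk_zero_le n _
      _ < ε := by rw [norm_sub_rev w p]; linarith
  have hE : ∀ n, expand n x (blk n 0 v) = blk n 0 (x (blk n 0 v)) := fun n => by
    refine lp.ext (funext fun c => ?_)
    rw [expand_apply, blk_apply (v := x _)]
    by_cases hc : tail n c = 0
    · rw [if_pos hc, hc, blk_zero_blk]; rfl
    · rw [if_neg hc, hblk n (blk n 0 v) _ (fun d hd => by rw [blk_apply, if_neg hd]) (tail_tail c) hc,
        map_zero]
      rfl
  rw [tendsto_iff_norm_sub_tendsto_zero]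
  have h1 : Tendsto (fun n => 2 * ‖x‖ * ‖v - blk n 0 v‖ + ‖blk n 0 (x v) - x v‖) atTop (𝓝 0) := by
    have ha := (tendsto_iff_norm_sub_tendsto_zero.1 (hproj v))
    simp only [norm_sub_rev _ v] at ha
    simpa using (ha.const_mul (2 * ‖x‖)).add (tendsto_iff_norm_sub_tendsto_zero.1 (hproj (x v)))
  refine squeeze_zero (fun _ => norm_nonneg _) (fun n => ?_) h1
  have e : expand n x v - x v =
      (expand n x (v - blk n 0 v) + blk n 0 (x (blk n 0 v - v))) + (blk n 0 (x v) - x v) := by
    rw [map_sub, hE, map_sub, map_sub]; abel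
  rw [e]
  refine (norm_add_le _ _).trans (add_le_add ((norm_add_le _ _).trans ?_) le_rfl)
  have h2 : ‖expand n x (v - blk n 0 v)‖ ≤ ‖x‖ * ‖v - blk n 0 v‖ :=
    ((expand n x).le_opNorm _).trans
      (mul_le_mul_of_nonneg_right (norm_expand_le n x) (norm_nonneg _))
  have h3 : ‖blk n 0 (x (blk n 0 v - v))‖ ≤ ‖x‖ * ‖v - blk n 0 v‖ := by
    rw [norm_sub_rev v]
    exact (norm_blk_zero_le n _).trans (x.le_opNorm _)
  linarith

end

/-! ### The diagonal -/

/-- Coordinatewise action, as a linear map. -/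
def diagLin (y : H →L[ℂ] H) : (Sp k H) →ₗ[ℂ] (Sp k H) where
  toFun v := ⟨fun c => y (v c), memℓp_two (Summable.of_nonneg_of_le (fun _ => sq_nonneg _)
    (fun c => by
      rw [← mul_pow]
      exact pow_le_pow_left₀ (norm_nonneg _) (y.le_opNorm _) 2)
    ((hasSum_norm_sq v).summable.mul_left (‖y‖ ^ 2)))⟩
  map_add' v w := lp.ext (funext fun c => by simp; rfl)
  map_smul' a v := lp.ext (funext fun c => by simp)

lemma diagLin_bound (y : H →L[ℂ] H) (v : (Sp k H)) : ‖diagLin y v‖ ≤ ‖y‖ * ‖v‖ := by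
  refine (sq_le_sq₀ (norm_nonneg _) (by positivity)).1 ?_
  rw [mul_pow]
  refine hasSum_le (fun c => ?_) (hasSum_norm_sq (diagLin y v))
    ((hasSum_norm_sq v).mul_left (‖y‖ ^ 2))
  rw [← mul_pow]
  exact pow_le_pow_left₀ (norm_nonneg _) (y.le_opNorm _) 2

/-- The coordinatewise action of an operator. -/
def diag (k : ℕ → ℕ) (y : H →L[ℂ] H) : Sp k H →L[ℂ] Sp k H :=
  (diagLin y).mkContinuous ‖y‖ (diagLin_bound y)

lemma diag_apply (y : H →L[ℂ] H) (v : (Sp k H)) (c : Cf k) : diag k y v c = y (v c) := rfl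

lemma norm_diag_le (y : H →L[ℂ] H) : ‖diag k y‖ ≤ ‖y‖ :=
  LinearMap.mkContinuous_norm_le _ (norm_nonneg _) _

lemma diag_mul (x y : H →L[ℂ] H) : diag k (x * y) = diag k x * diag k y :=
  op_ext fun _ _ => rfl

lemma diag_add (x y : H →L[ℂ] H) : diag k (x + y) = diag k x + diag k y :=
  op_ext fun v c => by simp [diag_apply]

lemma diag_smul (a : ℂ) (x : H →L[ℂ] H) : diag k (a • x) = a • diag k x :=
  op_ext fun v c => by simp [diag_apply]

lemma diag_one : diag k (1 : H →L[ℂ] H) = 1 := op_ext fun _ _ => rfl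

lemma diag_star [CompleteSpace H] (y : H →L[ℂ] H) : diag k (star y) = star (diag k y) := by
  rw [ContinuousLinearMap.star_eq_adjoint (diag k y), ContinuousLinearMap.eq_adjoint_iff]
  intro v w
  rw [lp.inner_eq_tsum, lp.inner_eq_tsum]
  refine tsum_congr fun c => ?_
  rw [diag_apply, diag_apply, ContinuousLinearMap.star_eq_adjoint,
    ContinuousLinearMap.adjoint_inner_left]

lemma diag_comm_blk (y : H →L[ℂ] H) (t : Cf k) (v : (Sp k H)) :
    blk n t (diag k y v) = diag k y (blk n t v) :=
  lp.ext (funext fun c => by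
    rw [blk_apply, diag_apply, diag_apply, blk_apply]
    split_ifs <;> simp)

lemma expand_comm_diag {x : (Sp k H →L[ℂ] Sp k H)} {y : H →L[ℂ] H} (hx : diag k y * x = x * diag k y) :
    diag k y * expand n x = expand n x * diag k y :=
  op_ext fun v c => by
    simp only [mul_apply_eq_comp, diag_apply, expand_apply, diag_comm_blk]
    exact congrArg (fun w : (Sp k H) => w (up (head n c))) (DFunLike.congr_fun hx _)

end Vale.Agent.P096.AT.ITP
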