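import Mathlib

/-!
# P096: the weights of the sites

Every positive rational probability vector occurs at arbitrarily late sites.
-/

namespace Vale.Agent.P096.AT.ITP

/-- Positive rational probability vectors. -/
abbrev RatVec : Type :=
  {p : Σ m : ℕ, Fin (m + 1) → ℚ // (∀ a, 0 < p.2 a) ∧ ∑ a, p.2 a = 1}

theorem exists_weights : ∃ (k : ℕ → ℕ) (w : (i : ℕ) → Fin (k i + 1) → ℝ),
    (∀ i a, 0 < w i a) ∧ (∀ i, ∑ a, w i a = 1) ∧
      ∀ (m : ℕ) (ρ : Fin m → ℚ), (∀ a, 0 < ρ a) → ∑ a, ρ a = 1 → ∀ N, ∃ i, N ≤ i ∧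
        ∃ h : k i + 1 = m, ∀ a, w i a = (ρ (Fin.cast h a) : ℝ) := by
  have : Nonempty RatVec := ⟨⟨⟨0, fun _ => 1⟩, fun _ => one_pos, by simp⟩⟩
  obtain ⟨f, hf⟩ := exists_surjective_nat RatVec
  refine ⟨fun i => (f i.unpair.1).1.1, fun i a => ((f i.unpair.1).1.2 a : ℝ),
    fun i a => Rat.cast_pos.2 ((f i.unpair.1).2.1 a),
    fun i => (Rat.cast_sum _ _).symm.trans ((congrArg _ (f i.unpair.1).2.2).trans Rat.cast_one), fun m ρ hρ hρ1 N => ?_⟩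
  cases m with
  | zero => simp at hρ1
  | succ m =>
    obtain ⟨j, hj⟩ := hf ⟨⟨m, ρ⟩, hρ, hρ1⟩
    have hi : f (Nat.pair j N).unpair.1 = ⟨⟨m, ρ⟩, hρ, hρ1⟩ := by rw [Nat.unpair_pair]; exact hj
    refine ⟨Nat.pair j N, Nat.right_le_pair j N, ?_⟩
    beta_reduce
    generalize f (Nat.pair j N).unpair.1 = q at hi ⊢
    subst hi
    exact ⟨rfl, fun a => rfl⟩

end Vale.Agent.P096.AT.ITP
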