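import Vale.Agent.P096.AT.Setting
import Vale.Agent.P096.AT.Absorb.Alg
import Vale.Agent.P096.AT.Absorb.Weights

/-!
# P096: the product vector, the modular flow and the sites

`ins 0 ξ` is cyclic and separating for the tensored algebra; the compressions to the first sites
commute with its modular flow.
-/

noncomputable section

namespace Vale.Agent.P096.AT.ITP

set_option linter.unusedSectionVars false

open scoped InnerProductSpace Vale.Agent.P132.Tomita
open Filter Topology
open Vale.Agent.P132

universe u

variable {k : ℕ → ℕ} {H : Type u} [NormedAddCommGroup H] [InnerProductSpace ℂ H] [CompleteSpace H]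

variable {l r : UFam k} {M : VonNeumannAlgebra H} {ξ : H}

lemma diag_ins (y : H →L[ℂ] H) (c : Cf k) (x : H) :
    diag k y (ins c x) = ins c (y x) := lp.ext (funext fun d => by
  rw [diag_apply, ins_apply, ins_apply]; split_ifs <;> simp)

lemma site_mem_algOf {S : VonNeumannAlgebra H} (h : IsPairing l r) (i : ℕ) (a b : Fin (k i + 1)) :
    site H i (l i a b) ∈ algOf S r :=
  (mem_algOf h.right).2 ⟨fun y _ => (site_comm_diag _ _).symm, fun j c d => by
    by_cases hji : j = i
    · subst hji; rw [site_mul, site_mul, h.comm]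
    · exact site_comm hji _ _⟩

lemma diag_mem_algOf (hr : IsUnits r) {x : H →L[ℂ] H} (hx : x ∈ M) :
    diag k x ∈ algOf M.commutant r :=
  (mem_algOf hr).2 ⟨fun y hy => by
    rw [← diag_mul, ← diag_mul, VonNeumannAlgebra.mem_commutant_iff.1 hy x hx],
    fun i a b => site_comm_diag _ _⟩

/-- The orbit of the product vector is dense. -/
lemma dense_orbit {A : VonNeumannAlgebra (Sp k H)} {S : VonNeumannAlgebra H} {p : UFam k} (hp : IsUnits p)
    (hd : ∀ y ∈ S, diag k y ∈ A) (hs : ∀ i a b, site H i (p i a b) ∈ A)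
    (hS : Dense ((fun a : H →L[ℂ] H => a ξ) '' (S : Set (H →L[ℂ] H)))) :
    Dense ((fun a : (Sp k H →L[ℂ] Sp k H) => a (ins 0 ξ)) '' (A : Set (Sp k H →L[ℂ] Sp k H))) := by
  let O : Submodule ℂ (Sp k H) :=
    { carrier := (fun a : (Sp k H →L[ℂ] Sp k H) => a (ins 0 ξ)) '' (A : Set (Sp k H →L[ℂ] Sp k H))
      add_mem' := by
        rintro _ _ ⟨a, ha, rfl⟩ ⟨b, hb, rfl⟩
        exact ⟨a + b, add_mem ha hb, rfl⟩
      zero_mem' := ⟨0, zero_mem A, rfl⟩
      smul_mem' := by
        rintro c _ ⟨a, ha, rfl⟩
        exact ⟨c • a, A.toStarSubalgebra.smul_mem ha c, rfl⟩ }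
  set G := O.topologicalClosure
  have hinv : ∀ a ∈ A, ∀ v ∈ G, a v ∈ G := by
    intro a ha v hv
    refine map_mem_closure (f := a) a.continuous hv ?_
    rintro _ ⟨b, hb, rfl⟩
    exact ⟨a * b, mul_mem ha hb, rfl⟩
  have h0 : ∀ x : H, ins 0 x ∈ G := by
    intro x
    refine map_mem_closure (f := (ins (0 : Cf k) : H →L[ℂ] (Sp k H))) (ins (0 : Cf k)).continuous (hS x) ?_
    rintro _ ⟨y, hy, rfl⟩
    exact ⟨diag k y, hd y hy, diag_ins y 0 ξ⟩
  have hc : ∀ n (c : Cf k), tail n c = 0 → ∀ x : H, ins c x ∈ G := by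
    intro n
    induction n with
    | zero =>
      intro c hc x
      have : c = 0 := by rw [← hc]; exact Cf.ext fun i => by simp [tail_apply]
      exact this ▸ h0 x
    | succ n ih =>
      intro c hc x
      have hc' : tail n (upd c n 0) = 0 := Cf.ext fun j => by
        by_cases hj : j < n
        · simp [tail_apply, zero_apply, hj]
        · rw [tail_apply, if_neg hj]
          by_cases hjn : j = n
          · subst hjn; rw [upd_apply_same]; rfl
          · rw [upd_apply_ne _ _ hjn]
            have := congrArg (fun d : Cf k => d.1 j) hc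
            simpa [tail_apply, zero_apply, show ¬ j < n + 1 by omega] using this
      obtain ⟨X, hX⟩ := hp.reach n (c.1 n)
      have hA : site H n (∑ a, ∑ b, X a b • p n a b) ∈ A := by
        simp only [site_sum, site_smul]
        exact sum_mem fun a _ => sum_mem fun b _ => A.toStarSubalgebra.smul_mem (hs n a b) _
      have e : site H n (∑ a, ∑ b, X a b • p n a b) (ins (upd c n 0) x) = ins c x := by
        refine lp.ext (funext fun d => ?_)
        rw [site_apply, Finset.sum_eq_single (0 : Idx k n)]
        · rw [ins_apply, ins_apply]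
          simp only [Matrix.sum_apply, Matrix.smul_apply, smul_eq_mul, hX]
          by_cases hd' : d = c
          · subst hd'; simp
          · rw [if_neg hd']
            split_ifs with h1 h2 <;> simp
            refine absurd ?_ hd'
            rw [← upd_self d n, h1]
            conv_rhs => rw [← upd_self c n]
            simpa [upd_upd] using congrArg (fun q => upd q n (c.1 n)) h2
        · intro q _ hq
          rw [ins_apply, if_neg, smul_zero]
          intro h
          have := congrArg (fun q : Cf k => q.1 n) h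
          simp [upd_apply_same, hq] at this
        · simp
      exact e ▸ hinv _ hA _ (ih _ hc' x)
  intro v
  refine O.isClosed_topologicalClosure.mem_of_tendsto (lp.hasSum_single (by norm_num) v)
    (Eventually.of_forall fun s => ?_)
  exact G.sum_mem fun c _ => (exists_tail_eq_zero c).elim fun m hm => hc m c (hm m le_rfl) (v c)

theorem cycSep_algOf (h : IsPairing l r) (hξ : Tomita.CycSep M ξ) :
    Tomita.CycSep (algOf M.commutant r) (ins (0 : Cf k) ξ) := by
  have hcomm : (algOf (H := H) M.commutant r).commutant = algOf M.commutant.commutant l :=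
    commutant_algOf h
  refine ⟨by rw [norm_ins, hξ.norm_one], dense_orbit h.left (fun y hy => diag_mem_algOf h.right hy)
    (site_mem_algOf h) hξ.cyclic, fun a ha ha0 => ?_⟩
  have hd := dense_orbit (A := (algOf (H := H) M.commutant r).commutant) (S := M.commutant) h.right
    (fun y hy => hcomm ▸ diag_mem_algOf h.left hy)
    (fun i a b => hcomm ▸ site_mem_algOf h.symm i a b) hξ.commutant.cyclic
  refine ContinuousLinearMap.ext fun v => ?_
  refine hd.induction (P := fun v => a v = (0 : (Sp k H →L[ℂ] Sp k H)) v) ?_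
    (isClosed_eq a.continuous (ContinuousLinearMap.continuous _)) v
  rintro _ ⟨b, hb, rfl⟩
  rw [← Tomita.commute_apply ha hb, ha0]
  simp

/-! ### The compressions and the modular flow -/

variable {n : ℕ}

lemma inner_blk_zero (p q : (Sp k H)) : ⟪blk n 0 p, q⟫_ℂ = ⟪p, blk n 0 q⟫_ℂ := by
  conv_lhs => arg 2; rw [blk, FunLike.coe_sum, Finset.sum_apply]
  conv_rhs => arg 3; rw [blk, FunLike.coe_sum, Finset.sum_apply]
  rw [sum_inner, inner_sum]
  refine Finset.sum_congr rfl fun h _ => ?_
  rw [ContinuousLinearMap.comp_apply, ContinuousLinearMap.comp_apply, inner_ins,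
    ← inner_conj_symm (p : (Sp k H)), inner_ins, inner_conj_symm]
  rfl

lemma expand_ins_zero (x : (Sp k H →L[ℂ] Sp k H)) (a : H) : expand n x (ins 0 a) = blk n 0 (x (ins 0 a)) := by
  refine lp.ext (funext fun c => ?_)
  rw [expand_apply, blk_apply (v := x _)]
  by_cases hc : tail n c = 0
  · have : blk n (tail n c) (ins 0 a) = ins 0 a := lp.ext (funext fun d => by
      rw [blk_apply, hc]
      split_ifs with hd
      · rw [show glue (head n d) (0 : Cf k) = d from up_head hd]
      · rw [ins_apply, if_neg fun h => hd (by rw [h, tail_zero])])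
    rw [if_pos hc, this]
    rfl
  · have : blk n (tail n c) (ins 0 a) = 0 := lp.ext (funext fun d => by
      rw [blk_apply]
      split_ifs with hd
      · rw [ins_apply, if_neg fun h => hc ?_]
        · rfl
        · simpa [tail_glue, tail_tail, tail_zero] using congrArg (tail n) h
      · rfl)
    rw [if_neg hc, this, map_zero]
    rfl

lemma expand_mem (hr : IsUnits r) {x : (Sp k H →L[ℂ] Sp k H)} (hx : x ∈ algOf M r) : expand n x ∈ algOf M r :=
  (mem_algOf hr).2 ⟨fun y hy => expand_comm_diag (((mem_algOf hr).1 hx).1 y hy),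
    fun i a b => expand_comm_site (((mem_algOf hr).1 hx).2 i a b)⟩

lemma blk_mem_K (hr : IsUnits r) {v : (Sp k H)}
    (hv : v ∈ Tomita.K (algOf M r) (ins (0 : Cf k) ξ)) :
    blk n 0 v ∈ Tomita.K (algOf M r) (ins (0 : Cf k) ξ) := by
  refine map_mem_closure (f := blk (H := H) n (0 : Cf k)) (blk n 0).continuous hv ?_
  rintro _ ⟨a, ha, hsa, rfl⟩
  exact ⟨expand n a, expand_mem hr ha, by rw [IsSelfAdjoint, ← expand_star, hsa.star_eq],
    expand_ins_zero a ξ⟩

lemma proj_blk (hr : IsUnits r) (v : (Sp k H)) :
    Tomita.proj (algOf M r) (ins (0 : Cf k) ξ) (blk n 0 v) =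
      blk n 0 (Tomita.proj (algOf M r) (ins (0 : Cf k) ξ) v) := by
  refine Submodule.eq_starProjection_of_mem_of_inner_eq_zero (blk_mem_K hr (Tomita.proj_mem v))
    fun w hw => ?_
  rw [← map_sub, Tomita.real_inner_def, inner_blk_zero, ← Tomita.real_inner_def]
  exact Submodule.starProjection_inner_eq_zero v _ (blk_mem_K hr hw)

lemma commute_U_blk (h : IsPairing l r) (hξ : Tomita.CycSep M ξ) (t : ℝ) (v : (Sp k H)) :
    Tomita.U (algOf M.commutant r) (ins (0 : Cf k) ξ) t (blk n 0 v) =
      blk n 0 (Tomita.U (algOf M.commutant r) (ins (0 : Cf k) ξ) t v) := by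
  set M₁ := algOf (H := H) M.commutant r
  set ξ₁ : (Sp k H) := ins 0 ξ
  have hR : Commute (Tomita.R M₁ ξ₁) (blk n 0) := ContinuousLinearMap.ext fun w => by
    simp only [mul_apply_eq_comp, Tomita.R_apply, Tomita.projI, map_add, ← proj_blk h.right,
      map_smul, M₁, ξ₁]
  refine tendsto_nhds_unique ((cycSep_algOf h hξ).tendsto_U t _)
    ((((blk n 0).continuous.tendsto _).comp ((cycSep_algOf h hξ).tendsto_U t v)).congr fun j => ?_)
  exact (DFunLike.congr_fun (Tomita.commute_fR hR _) v).symm

/-- The sites of the tensored algebra. -/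
theorem sites_algOf (h : IsPairing l r) (hξ : Tomita.CycSep M ξ)
    (w : (i : ℕ) → Fin (k i + 1) → ℝ) (hw : ∀ i a, 0 < w i a) (hw1 : ∀ i, ∑ a, w i a = 1)
    (hlw : ∀ i a b, l i a b 0 0 = if a = b then (w i a : ℂ) else 0)
    (hrich : ∀ (m : ℕ) (ρ : Fin m → ℚ), (∀ a, 0 < ρ a) → ∑ a, ρ a = 1 → ∀ N, ∃ i, N ≤ i ∧
      ∃ h : k i + 1 = m, ∀ a, w i a = (ρ (Fin.cast h a) : ℝ)) :
    Nonempty (Sites (algOf M.commutant r) (ins (0 : Cf k) ξ)) := by
  refine ⟨⟨fun i => k i + 1, w, fun i a b => site H i (l i a b), fun n => expand n,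
    fun i => Nat.succ_pos _, hw, hw1, site_mem_algOf h, fun i a b c e => ?_, fun i a b => ?_,
    fun i => ?_, fun i j hij a b c e => site_comm hij _ _, fun i Z hZ hZu a b => ?_, hrich,
    fun n x hx => expand_mem h.right hx, fun n x _ y _ => expand_add n x y,
    fun n c x _ => expand_smul n c x, fun n x _ => expand_star n x,
    fun n i hi x _ a b => (expand_comm_site_ge hi _ x).symm,
    fun n i hi x _ a b => expand_site_mul hi _ x, fun n m e K _ he => expand_bound he,
    fun n t x hx => ?_, fun x _ v => expand_tendsto x v⟩⟩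
  · rw [site_mul, h.left.mul, apply_ite (site H i), site_zero]
  · rw [site_star, h.left.conj]
  · rw [← site_sum, h.left.one, site_one]
  · set E : SMat k i := Matrix.single 0 0 1
    have hE : site H i E (ins 0 ξ) = ins 0 ξ := by
      refine lp.ext (funext fun d => ?_)
      rw [site_apply, Finset.sum_eq_single (0 : Idx k i)]
      · by_cases hd : d = 0
        · subst hd
          rw [show E ((0 : Cf k).1 i) 0 = 1 from Matrix.single_apply_same _ _ _,
            one_smul, show upd (0 : Cf k) i 0 = 0 from upd_self 0 i]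
        · by_cases hdi : d.1 i = 0
          · rw [show upd d i 0 = d from hdi ▸ upd_self d i, ins_apply, if_neg hd, smul_zero]
          · rw [show E (d.1 i) 0 = 0 by simp [E, Ne.symm hdi], zero_smul, ins_apply, if_neg hd]
      · intro q _ hq
        rw [show E (d.1 i) q = 0 by simp [E, Ne.symm hq], zero_smul]
      · simp
    have hcomm : ∀ A, site H i A * Z = Z * site H i A := by
      intro A
      obtain ⟨C, hC⟩ := h.span i A
      rw [hC]
      simp only [site_sum, site_smul, Finset.sum_mul, Finset.mul_sum, smul_mul_assoc,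
        mul_smul_comm, ← site_mul]
      refine Finset.sum_congr rfl fun a' _ => Finset.sum_congr rfl fun c _ =>
        Finset.sum_congr rfl fun b' _ => Finset.sum_congr rfl fun d _ => congrArg _ ?_
      rw [mul_assoc, ((mem_algOf h.right).1 hZ).2 i b' d, ← mul_assoc, ← hZu a' c, mul_assoc]
    have hEs : star (site H i E) = site H i E := by
      rw [site_star, Matrix.conjTranspose_single, star_one]
    have hcorner : site H i E * site H i (l i a b) * site H i E =
        l i a b 0 0 • site H i E := by
      rw [site_mul, site_mul, ← site_smul]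
      congr 1
      simp [E, Matrix.single_mul_mul_single, Matrix.smul_single]
    calc ⟪(ins 0 ξ : (Sp k H)), Z (site H i (l i a b) (ins 0 ξ))⟫_ℂ
        = ⟪site H i E (ins 0 ξ), Z (site H i (l i a b) (site H i E (ins 0 ξ)))⟫_ℂ := by rw [hE]
      _ = ⟪(ins 0 ξ : (Sp k H)), (Z * (site H i E * site H i (l i a b) * site H i E)) (ins 0 ξ)⟫_ℂ := by
          nth_rw 1 [← hEs]
          rw [Tomita.inner_star_left]
          rw [← mul_assoc, ← mul_assoc, ← hcomm]
          rfl
      _ = _ := by
          rw [hcorner, mul_smul_comm, smul_apply, mul_apply_eq_comp, hE, inner_smul_right,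
            hlw]
          split_ifs <;> simp
  · have hc := cycSep_algOf h hξ
    set M₁ := algOf (H := H) M.commutant r
    set ξ₁ : (Sp k H) := ins 0 ξ
    have hEn : ∀ y : (Sp k H →L[ℂ] Sp k H), expand n y ξ₁ = blk n 0 (y ξ₁) := fun y => expand_ins_zero y ξ
    refine sub_eq_zero.1 (hc.separating _ (sub_mem (expand_mem h.right (hc.sigma_mem t hx))
      (hc.sigma_mem t (expand_mem h.right hx))) ?_)
    rw [sub_apply, sub_eq_zero, hEn]
    simp only [mul_apply_eq_comp, hc.U_omega, hEn]
    exact (commute_U_blk h hξ t _).symm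

end Vale.Agent.P096.AT.ITP
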